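import Crest.Agent.X262.Alg44.Defs

/-!
# Row 262, G4 / ALG (helper44), part 2: calculus of reductions

* `Red` : `r_neg … r_smul`, `ζ`, `exists_min`, `exists_unit`, `mem_o_of_indep`, `indep_of_r`,
  `finrank_le`, `up`, `dn`, `r_aeval`, `exists_nrm`, `algIndep_of_r`, `comap`;
* `Pre` : `mem_Ao_iff`, `exists_lift`, `exists_ker`, `mem_Lo_iff`, `Lo_spec`, `inv_mem_Lo`,
  `exists_lift_Lo`, `LK`, `mem_Lo_of_Lk`, `chart_le_LK`, `eventually_Lo`.
-/

set_option autoImplicit false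

open Filter Topology MvPolynomial

noncomputable section

namespace Crest.Agent.X262.Alg44

open Crest.Agent.X277 Crest.Agent.X277.Lef Crest.Agent.X277.AN.G1

variable {F E : Type} [Field F] [Algebra ℂ F] [Field E] [Algebra ℂ E]

namespace Red

variable {R : Red F E} {f g : E} {c : ℂ}


theorem r_sub (hf : f ∈ R.O) (hg : g ∈ R.O) : R.r (f - g) = R.r f - R.r g :=
  R.ρ.map_sub ⟨f, hf⟩ ⟨g, hg⟩

theorem r_pow (hf : f ∈ R.O) (n : ℕ) : R.r (f ^ n) = R.r f ^ n := R.ρ.map_pow ⟨f, hf⟩ n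

theorem r_sum {ι : Type*} {s : Finset ι} {a : ι → E} (h : ∀ i ∈ s, a i ∈ R.O) :
    R.r (∑ i ∈ s, a i) = ∑ i ∈ s, R.r (a i) := by
  classical
  induction s using Finset.induction_on with
  | empty => simpa using R.r_zero
  | insert i s hi ih =>
    rw [Finset.forall_mem_insert] at h
    rw [Finset.sum_insert hi, Finset.sum_insert hi, R.r_add h.1 (sum_mem h.2), ih h.2]



theorem smul_mem (hc : c ∈ R.o) (hf : f ∈ R.O) : c • f ∈ R.O := by
  rw [Algebra.smul_def]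
  exact mul_mem hc hf

theorem r_smul (hc : c ∈ R.o) (hf : f ∈ R.O) : R.r (c • f) = R.z c • R.r f := by
  rw [Algebra.smul_def, R.r_mul hc hf, R.r_cst hc, Algebra.smul_def]

variable (R) in
/-- the reduction of the constants as a ring homomorphism -/
def ζ : R.o →+* ℂ where
  toFun c := R.z c
  map_one' := (algebraMap ℂ F).injective (by
    rw [← R.r_cst (1 : R.o).2]
    simp [R.r_one])
  map_zero' := (algebraMap ℂ F).injective (by
    rw [← R.r_cst (0 : R.o).2]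
    simp [R.r_zero])
  map_mul' a b := (algebraMap ℂ F).injective (by
    rw [map_mul, ← R.r_cst a.2, ← R.r_cst b.2, ← R.r_cst (a * b).2, ← R.r_mul a.2 b.2, ← map_mul]
    rfl)
  map_add' a b := (algebraMap ℂ F).injective (by
    rw [map_add, ← R.r_cst a.2, ← R.r_cst b.2, ← R.r_cst (a + b).2, ← R.r_add a.2 b.2, ← map_add]
    rfl)

theorem ζ_apply (c : R.o) : R.ζ c = R.z c := rfl

theorem ζ_surj : Function.Surjective R.ζ := fun c₀ =>
  (R.z_sur c₀).elim fun c hc => ⟨⟨c, hc.1⟩, hc.2⟩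

theorem z_zero : R.z 0 = 0 := R.ζ.map_zero

theorem z_one : R.z 1 = 1 := R.ζ.map_one

theorem z_mul {c' : ℂ} (hc : c ∈ R.o) (hc' : c' ∈ R.o) : R.z (c * c') = R.z c * R.z c' :=
  R.ζ.map_mul ⟨c, hc⟩ ⟨c', hc'⟩

theorem inv_mem_o (hc : c ∈ R.o) (h : R.z c ≠ 0) : c⁻¹ ∈ R.o := by
  rw [mem_o, map_inv₀]
  exact R.inv_mem hc (by rw [R.r_cst hc]; exact (map_ne_zero _).2 h)

theorem inv_of_not_mem (hc : c ∉ R.o) : c⁻¹ ∈ R.o ∧ R.z c⁻¹ = 0 := by
  have h : c⁻¹ ∈ R.o := (R.val c).resolve_left hc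
  refine ⟨h, by_contra fun h0 => hc ?_⟩
  simpa using inv_mem_o h h0

variable (R) in
/-- the valuation ring of the constants -/
def vo : ValuationSubring ℂ := { R.o with mem_or_inv_mem' := R.val }

theorem exists_min {ι : Type*} (s : Finset ι) {a : ι → ℂ} (h : ∃ i ∈ s, a i ≠ 0) :
    ∃ i ∈ s, a i ≠ 0 ∧ ∀ j ∈ s, a j / a i ∈ R.o := by
  obtain ⟨i0, hi0, h0⟩ := h
  obtain ⟨i, hi, h1⟩ := s.exists_max_image (fun i => R.vo.valuation (a i)) ⟨i0, hi0⟩
  have h2 : 0 < R.vo.valuation (a i) :=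
    lt_of_lt_of_le (zero_lt_iff.2 ((map_ne_zero _).2 h0)) (h1 i0 hi0)
  refine ⟨i, hi, fun h3 => by simp [h3] at h2, fun j hj => ?_⟩
  change a j / a i ∈ R.vo
  rw [← ValuationSubring.valuation_le_one_iff, map_div₀, div_le_one₀ h2]
  exact h1 j hj

/-- lattices which are spanned by elements with independent reductions are saturated -/
theorem mem_o_of_indep {ι : Type*} [Fintype ι] {b : ι → E} (hb : ∀ i, b i ∈ R.O)
    (hi : LinearIndependent ℂ fun i => R.r (b i)) {a : ι → ℂ} (h : ∑ i, a i • b i ∈ R.O) (i : ι) :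
    a i ∈ R.o := by
  by_cases h0 : a i = 0
  · exact h0 ▸ zero_mem _
  obtain ⟨j, -, hj, h1⟩ := exists_min (R := R) Finset.univ ⟨i, Finset.mem_univ i, h0⟩
  have h2 : a j ∈ R.o := by
    by_contra h3
    obtain ⟨h4, h5⟩ := inv_of_not_mem h3
    have h6 : (a j)⁻¹ • ∑ i, a i • b i = ∑ i, (a i / a j) • b i := by
      rw [Finset.smul_sum]
      exact Finset.sum_congr rfl fun l _ => by rw [smul_smul, div_eq_inv_mul]
    have h7 := r_smul h4 h
    rw [h5, zero_smul, h6, r_sum fun l hl => smul_mem (h1 l hl) (hb l),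
      Finset.sum_congr rfl fun l hl => r_smul (h1 l hl) (hb l)] at h7
    have h8 := Fintype.linearIndependent_iff.1 hi _ h7 j
    rw [div_self hj, z_one] at h8
    exact one_ne_zero h8
  have h3 := mul_mem (h1 i (Finset.mem_univ i)) h2
  rwa [div_mul_cancel₀ _ hj] at h3

theorem indep_of_r {ι : Type*} {b : ι → E} (hb : ∀ i, b i ∈ R.O)
    (hi : LinearIndependent ℂ fun i => R.r (b i)) : LinearIndependent ℂ b := by
  classical
  rw [linearIndependent_iff']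
  intro s a h i his
  by_contra h0
  obtain ⟨j, hjs, hj, h1⟩ := exists_min (R := R) s ⟨i, his, h0⟩
  have h6 : (a j)⁻¹ • ∑ i ∈ s, a i • b i = ∑ i ∈ s, (a i / a j) • b i := by
    rw [Finset.smul_sum]
    exact Finset.sum_congr rfl fun l _ => by rw [smul_smul, div_eq_inv_mul]
  rw [h, smul_zero] at h6
  have h7 := congrArg R.r h6
  rw [R.r_zero, r_sum fun l hl => smul_mem (h1 l hl) (hb l),
    Finset.sum_congr rfl fun l hl => r_smul (h1 l hl) (hb l)] at h7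
  have h8 := linearIndependent_iff'.1 hi s _ h7.symm j hjs
  rw [div_self hj, z_one] at h8
  exact one_ne_zero h8

variable (R) in
theorem exists_unit (hf : f ≠ 0) : ∃ c : ℂ, c ≠ 0 ∧ c • f ∈ R.O ∧ R.r (c • f) ≠ 0 := by
  obtain ⟨n, b, h1, h2, h3⟩ := R.ge (Submodule.span ℂ {f}) inferInstance
  rcases isEmpty_or_nonempty (Fin n) with h | ⟨⟨i⟩⟩
  · rw [Set.range_eq_empty, Submodule.span_empty] at h2
    exact absurd (Submodule.span_singleton_eq_bot.1 h2.symm) hf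
  · obtain ⟨c, hc⟩ := Submodule.mem_span_singleton.1 (h2 ▸ Submodule.subset_span ⟨i, rfl⟩ :
      b i ∈ Submodule.span ℂ {f})
    refine ⟨c, fun h0 => h3.ne_zero i ?_, hc ▸ h1 i, hc ▸ h3.ne_zero i⟩
    rw [← hc, h0, zero_smul, R.r_zero]


/-- an element of the maximal ideal is a unit times a constant of the maximal ideal -/
theorem exists_of_r_zero (hf : f ∈ R.O) (h : R.r f = 0) :
    ∃ c ∈ R.o, R.z c = 0 ∧ ∃ g ∈ R.O, f = c • g ∧ g ∈ Submodule.span ℂ {f} := by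
  by_cases h0 : f = 0
  · exact ⟨0, zero_mem _, z_zero, 0, zero_mem _, by simp [h0], zero_mem _⟩
  obtain ⟨c, hc, h1, h2⟩ := R.exists_unit h0
  have h3 : c ∉ R.o := fun h3 => h2 (by rw [r_smul h3 hf, h, smul_zero])
  exact ⟨c⁻¹, (inv_of_not_mem h3).1, (inv_of_not_mem h3).2, c • f, h1,
    by rw [smul_smul, inv_mul_cancel₀ hc, one_smul],
    Submodule.smul_mem _ _ (Submodule.mem_span_singleton_self f)⟩


/-- semicontinuity of dimensions -/
theorem finrank_le {V : Submodule ℂ E} [Module.Finite ℂ V] {W : Submodule ℂ F} [Module.Finite ℂ W]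
    (h : ∀ f ∈ V, f ∈ R.O → R.r f ∈ W) : Module.finrank ℂ V ≤ Module.finrank ℂ W := by
  obtain ⟨n, b, h1, h2, h3⟩ := R.ge V inferInstance
  have h4 : ∀ i, R.r (b i) ∈ W := fun i => h _ (h2 ▸ Submodule.subset_span ⟨i, rfl⟩) (h1 i)
  have h5 : LinearIndependent ℂ fun i => (⟨R.r (b i), h4 i⟩ : W) :=
    LinearIndependent.of_comp W.subtype h3
  rw [← h2]
  exact (finrank_range_le_card b).trans h5.fintype_card_le_finrank

/-- lifts of independent elements -/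
theorem finrank_ge {V : Submodule ℂ E} [Module.Finite ℂ V] {W : Submodule ℂ F} [Module.Finite ℂ W]
    (h : ∀ a ∈ W, ∃ f ∈ V, f ∈ R.O ∧ R.r f = a) : Module.finrank ℂ W ≤ Module.finrank ℂ V := by
  let b := Module.finBasis ℂ W
  choose f h1 h2 h3 using fun i => h _ (b i).2
  have h4 : LinearIndependent ℂ fun i => R.r (f i) := by
    simp only [h3]
    exact b.linearIndependent.map' W.subtype W.ker_subtype
  have h5 : LinearIndependent ℂ fun i => (⟨f i, h1 i⟩ : V) :=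
    LinearIndependent.of_comp V.subtype (indep_of_r h2 h4)
  simpa using h5.fintype_card_le_finrank

/-! ### polynomials -/

variable {σ : Type*}

variable (R) in
/-- a polynomial with integral coefficients on the generic fibre -/
def up : MvPolynomial σ R.o →+* MvPolynomial σ ℂ := MvPolynomial.map R.o.subtype

variable (R) in
/-- a polynomial with integral coefficients on the special fibre -/
def dn : MvPolynomial σ R.o →+* MvPolynomial σ ℂ := MvPolynomial.map R.ζ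

@[simp] theorem up_X (i : σ) : R.up (X i) = X i := map_X _ _
@[simp] theorem dn_X (i : σ) : R.dn (X i) = X i := map_X _ _
@[simp] theorem up_C (c : R.o) : R.up (C c : MvPolynomial σ R.o) = C (c : ℂ) := map_C _ _
@[simp] theorem dn_C (c : R.o) : R.dn (C c : MvPolynomial σ R.o) = C (R.z c) := map_C _ _

theorem dn_surj : Function.Surjective (R.dn : MvPolynomial σ R.o → _) := map_surjective _ ζ_surj

theorem r_aeval {y : σ → E} (hy : ∀ i, y i ∈ R.O) (p : MvPolynomial σ R.o) :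
    aeval y (R.up p) ∈ R.O ∧ R.r (aeval y (R.up p)) = aeval (fun i => R.r (y i)) (R.dn p) := by
  induction p using MvPolynomial.induction_on with
  | C c =>
    rw [up_C, dn_C, aeval_C, aeval_C]
    exact ⟨c.2, R.r_cst c.2⟩
  | add p q hp hq =>
    simp only [map_add]
    exact ⟨add_mem hp.1 hq.1, by rw [R.r_add hp.1 hq.1, hp.2, hq.2]⟩
  | mul_X p i hp =>
    simp only [map_mul, up_X, dn_X, aeval_X]
    exact ⟨mul_mem hp.1 (hy i), by rw [R.r_mul hp.1 (hy i), hp.2]⟩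

theorem z_eval {y : σ → ℂ} (hy : ∀ i, y i ∈ R.o) (p : MvPolynomial σ R.o) :
    eval y (R.up p) ∈ R.o ∧ R.z (eval y (R.up p)) = eval (fun i => R.z (y i)) (R.dn p) := by
  induction p using MvPolynomial.induction_on with
  | C c =>
    rw [up_C, dn_C, eval_C, eval_C]
    exact ⟨c.2, rfl⟩
  | add p q hp hq =>
    simp only [map_add]
    exact ⟨add_mem hp.1 hq.1, by rw [← hp.2, ← hq.2]; exact R.ζ.map_add ⟨_, hp.1⟩ ⟨_, hq.1⟩⟩
  | mul_X p i hp =>
    simp only [map_mul, up_X, dn_X, eval_X]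
    exact ⟨mul_mem hp.1 (hy i), by rw [z_mul hp.1 (hy i), hp.2]⟩

/-- forms lift to forms -/
theorem exists_lift_form {p : MvPolynomial σ ℂ} {M : ℕ} (hp : p.IsHomogeneous M) :
    ∃ q : MvPolynomial σ R.o, q.IsHomogeneous M ∧ R.dn q = p := by
  choose c hc using ζ_surj (R := R)
  refine ⟨∑ m ∈ p.support, monomial m (c (coeff m p)), IsHomogeneous.sum _ _ _ fun m hm =>
    isHomogeneous_monomial _ ?_, ?_⟩
  · rw [Finsupp.degree_eq_weight_one]
    exact hp (mem_support_iff.1 hm)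
  · rw [map_sum]
    conv_rhs => rw [p.as_sum]
    exact Finset.sum_congr rfl fun m _ => by rw [dn, map_monomial, hc]

theorem exists_up {p : MvPolynomial σ ℂ} (hp : ∀ m, coeff m p ∈ R.o) : ∃ q, R.up q = p :=
  ⟨∑ m ∈ p.support, monomial m ⟨coeff m p, hp m⟩, by
    rw [map_sum]
    conv_rhs => rw [p.as_sum]
    exact Finset.sum_congr rfl fun m _ => by rw [up, map_monomial]; rfl⟩

/-- normalisation of a polynomial -/
theorem exists_nrm {p : MvPolynomial σ ℂ} (hp : p ≠ 0) :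
    ∃ c : ℂ, c ≠ 0 ∧ ∃ q, R.up q = c • p ∧ R.dn q ≠ 0 := by
  obtain ⟨m0, hm0⟩ := ne_zero_iff.1 hp
  obtain ⟨m, -, h0, h1⟩ := exists_min (R := R) p.support (a := fun m => coeff m p)
    ⟨m0, mem_support_iff.2 hm0, hm0⟩
  obtain ⟨q, hq⟩ := exists_up (R := R) (p := (coeff m p)⁻¹ • p) fun m' => by
    rw [coeff_smul, smul_eq_mul, ← div_eq_inv_mul]
    by_cases h : m' ∈ p.support
    · exact h1 m' h
    · rw [notMem_support_iff.1 h, zero_div]
      exact zero_mem _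
  refine ⟨_, inv_ne_zero h0, q, hq, fun h => ?_⟩
  have h2 := congrArg (coeff m) hq
  rw [coeff_smul, smul_eq_mul, inv_mul_cancel₀ h0, up, coeff_map] at h2
  have h3 := congrArg (coeff m) h
  rw [dn, coeff_map, show coeff m q = 1 from Subtype.ext h2, map_one, coeff_zero] at h3
  exact one_ne_zero h3

theorem algIndep_of_r {y : σ → E} (hy : ∀ i, y i ∈ R.O)
    (h : AlgebraicIndependent ℂ fun i => R.r (y i)) : AlgebraicIndependent ℂ y := by
  rw [algebraicIndependent_iff] at h ⊢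
  intro p hp
  by_contra h0
  obtain ⟨c, -, q, h1, h2⟩ := exists_nrm (R := R) h0
  refine h2 (h _ ?_)
  rw [← (r_aeval hy q).2, h1, map_smul, hp, smul_zero, R.r_zero]

variable (R) in
/-- restriction to a subfield -/
def comap {E' : Type} [Field E'] [Algebra ℂ E'] (j : E' →ₐ[ℂ] E) : Red F E' where
  O := R.O.comap (j : E' →+* E)
  r f := R.r (j f)
  r_add hf hg := by rw [map_add]; exact R.r_add hf hg
  r_mul hf hg := by rw [map_mul]; exact R.r_mul hf hg
  r_one := by rw [map_one, R.r_one]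
  inv_mem hf h := by
    change j _ ∈ R.O
    rw [map_inv₀]
    exact R.inv_mem hf h
  val c := by
    change j _ ∈ R.O ∨ j _ ∈ R.O
    rw [j.commutes, j.commutes]
    exact R.val c
  z := R.z
  r_cst hc := by
    change j _ ∈ R.O at hc
    rw [j.commutes] at hc ⊢
    exact R.r_cst hc
  z_sur c₀ := (R.z_sur c₀).imp fun c hc => ⟨by
    change j _ ∈ R.O
    rw [j.commutes]
    exact hc.1, hc.2⟩
  ge V hV := by
    obtain ⟨n, b, h1, h2, h3⟩ := R.ge (V.map j.toLinearMap) inferInstance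
    choose b' h4 h5 using fun i => Submodule.mem_map.1
      (h2 ▸ Submodule.subset_span ⟨i, rfl⟩ : b i ∈ V.map j.toLinearMap)
    obtain rfl : b = fun i => j (b' i) := funext fun i => (h5 i).symm
    refine ⟨n, b', h1, Submodule.map_injective_of_injective (f := j.toLinearMap)
      j.injective ?_, h3⟩
    rw [← h2, Submodule.map_span, ← Set.range_comp]
    rfl

theorem mem_comap {E' : Type} [Field E'] [Algebra ℂ E'] {j : E' →ₐ[ℂ] E} {f : E'} :
    f ∈ (R.comap j).O ↔ j f ∈ R.O := Iff.rfl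


theorem mem_comap_o {E' : Type} [Field E'] [Algebra ℂ E'] {j : E' →ₐ[ℂ] E} :
    c ∈ (R.comap j).o ↔ c ∈ R.o := by
  rw [mem_o, mem_o, mem_comap, j.commutes]

theorem mem_Ao_iff {ι : Type} {y : ι → E} {i : ι} :
    f ∈ R.Ao y i ↔ ∃ p : MvPolynomial ι R.o, aeval (fun j => y j / y i) (R.up p) = f := by
  constructor
  · intro hf
    induction hf using Subring.closure_induction with
    | mem f hf =>
      rcases hf with ⟨c, hc, rfl⟩ | ⟨j, rfl⟩
      · exact ⟨C ⟨c, hc⟩, by simp⟩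
      · exact ⟨X j, by simp⟩
    | zero => exact ⟨0, by simp⟩
    | one => exact ⟨1, by simp⟩
    | add f g _ _ hf hg =>
      obtain ⟨p, rfl⟩ := hf
      obtain ⟨q, rfl⟩ := hg
      exact ⟨p + q, by simp⟩
    | neg f _ hf =>
      obtain ⟨p, rfl⟩ := hf
      exact ⟨-p, by simp⟩
    | mul f g _ _ hf hg =>
      obtain ⟨p, rfl⟩ := hf
      obtain ⟨q, rfl⟩ := hg
      exact ⟨p * q, by simp⟩
  · rintro ⟨p, rfl⟩
    induction p using MvPolynomial.induction_on with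
    | C c =>
      rw [up_C, aeval_C]
      exact Subring.subset_closure (Or.inl ⟨c, c.2, rfl⟩)
    | add p q hp hq =>
      simp only [map_add]
      exact add_mem hp hq
    | mul_X p j hp =>
      simp only [map_mul, up_X, aeval_X]
      exact mul_mem hp (Subring.subset_closure (Or.inr ⟨j, rfl⟩))

theorem cst_mem_Ao {ι : Type} (y : ι → E) (i : ι) (hc : c ∈ R.o) : algebraMap ℂ E c ∈ R.Ao y i :=
  Subring.subset_closure (Or.inl ⟨c, hc, rfl⟩)

theorem div_mem_Ao {ι : Type} (y : ι → E) (i j : ι) : y j / y i ∈ R.Ao y i :=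
  Subring.subset_closure (Or.inr ⟨j, rfl⟩)

theorem smul_mem_Ao {ι : Type} {y : ι → E} {i : ι} (hc : c ∈ R.o) (hf : f ∈ R.Ao y i) :
    c • f ∈ R.Ao y i := by
  rw [Algebra.smul_def]
  exact mul_mem (cst_mem_Ao y i hc) hf

end Red

namespace Pre

variable {R : Red F E} {P : PModel ℂ F} {G : Pre R P} {i j : Fin (P.N + 1)} {x : Pts P} {f g : E}

theorem Ao_le_chart (hf : f ∈ R.Ao G.y i) : f ∈ chart ℂ G.y i := by
  refine (Subring.closure_le (t := (chart ℂ G.y i).toSubring)).2 ?_ hf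
  rintro _ (⟨c, -, rfl⟩ | ⟨j, rfl⟩)
  · exact (chart ℂ G.y i).algebraMap_mem c
  · exact div_mem_chart G.y i j

theorem r_aeval (i : Fin (P.N + 1)) (p : MvPolynomial (Fin (P.N + 1)) R.o) :
    R.r (aeval (fun j => G.y j / G.y i) (R.up p)) = aeval (fun j => P.y j / P.y i) (R.dn p) := by
  rw [(Red.r_aeval (G.div_mem i) p).2]
  simp only [G.r_div]


variable (G) in
theorem exists_lift {a : F} (ha : a ∈ P.A i) : ∃ f ∈ R.Ao G.y i, R.r f = a := by
  obtain ⟨p, rfl⟩ := exists_poly ha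
  obtain ⟨q, rfl⟩ := R.dn_surj p
  exact ⟨_, Red.mem_Ao_iff.2 ⟨q, rfl⟩, r_aeval i q⟩


/-- the kernel of the reduction -/
theorem exists_ker (hf : f ∈ R.Ao G.y i) (h : R.r f = 0) :
    ∃ c ∈ R.o, R.z c = 0 ∧ ∃ g ∈ R.Ao G.y i, f = c • g := by
  obtain ⟨c, hc, h1, g, hg, h2, h3⟩ := Red.exists_of_r_zero (Ao_spec hf).1 h
  obtain ⟨a, rfl⟩ := Submodule.mem_span_singleton.1 h3
  exact ⟨c, hc, h1, _, G.sat i _ ((chart ℂ G.y i).smul_mem (Ao_le_chart hf) a) hg, h2⟩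

theorem mem_Loc {hx : x ∈ pat P i} : f ∈ G.Loc i x hx ↔
    ∃ a ∈ R.Ao G.y i, ∃ c ∈ R.Ao G.y i, ev (R.r c) x ≠ 0 ∧ f * c = a := Iff.rfl

theorem Loc_spec {hx : x ∈ pat P i} (hf : f ∈ G.Loc i x hx) : f ∈ R.O ∧ R.r f ∈ (lp x).O := by
  obtain ⟨a, ha, c, hc, h0, h1⟩ := hf
  have h2 : R.r c ≠ 0 := LP.ne_zero_of_ne h0
  obtain rfl : f = a / c := by rw [← h1, mul_div_cancel_right₀ _ (Red.ne_zero h2)]
  exact ⟨Red.div_mem (Ao_spec ha).1 (Ao_spec hc).1 h2, by
    rw [Red.r_div (Ao_spec ha).1 (Ao_spec hc).1 h2]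
    exact LP.div_mem (A_le hx (Ao_spec ha).2) h0⟩

theorem Ao_le_Loc (hx : x ∈ pat P i) (hf : f ∈ R.Ao G.y i) : f ∈ G.Loc i x hx :=
  ⟨f, hf, 1, one_mem _, by rw [R.r_one]; simp [ev, LP.v_one], mul_one _⟩

theorem inv_mem_Loc {hx : x ∈ pat P i} (hf : f ∈ G.Loc i x hx) (h : ev (R.r f) x ≠ 0) :
    f⁻¹ ∈ G.Loc i x hx := by
  obtain ⟨h2, h3⟩ := Loc_spec hf
  obtain ⟨a, ha, c, hc, h0, h1⟩ := hf
  refine ⟨c, hc, a, ha, ?_, by
    rw [← h1, inv_mul_cancel_left₀ (Red.ne_zero (LP.ne_zero_of_ne h))]⟩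
  rw [← h1, R.r_mul h2 (Ao_spec hc).1, ev, (lp x).v_mul h3 (A_le hx (Ao_spec hc).2)]
  exact mul_ne_zero h h0

theorem Loc_le (hx : x ∈ pat P i) (hx' : x ∈ pat P j) : G.Loc i x hx ≤ G.Loc j x hx' := by
  have h1 : R.Ao G.y i ≤ G.Loc j x hx' := by
    refine Subring.closure_le.2 ?_
    rintro _ (⟨c, hc, rfl⟩ | ⟨k, rfl⟩)
    · exact Ao_le_Loc hx' (Red.cst_mem_Ao _ _ hc)
    · refine ⟨G.y k / G.y j, Red.div_mem_Ao _ _ _, G.y i / G.y j, Red.div_mem_Ao _ _ _, ?_, ?_⟩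
      · rw [G.r_div]
        exact (mem_pat_iff hx').1 hx
      · have := G.y_ne i
        field_simp
  rintro f ⟨a, ha, c, hc, h0, h2⟩
  obtain rfl : f = a * c⁻¹ := by
    rw [← h2, mul_inv_cancel_right₀ (Red.ne_zero (LP.ne_zero_of_ne h0))]
  exact mul_mem (h1 ha) (inv_mem_Loc (h1 hc) h0)

theorem Lo_eq (hx : x ∈ pat P i) : G.Lo x = G.Loc i x hx := le_antisymm (Loc_le _ _) (Loc_le _ _)

theorem mem_Lo_iff (hx : x ∈ pat P i) : f ∈ G.Lo x ↔
    ∃ a ∈ R.Ao G.y i, ∃ c ∈ R.Ao G.y i, ev (R.r c) x ≠ 0 ∧ f * c = a := by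
  rw [Lo_eq hx, mem_Loc]

theorem Lo_spec (hf : f ∈ G.Lo x) : f ∈ R.O ∧ R.r f ∈ (lp x).O := Loc_spec hf

theorem Ao_le_Lo (hx : x ∈ pat P i) (hf : f ∈ R.Ao G.y i) : f ∈ G.Lo x :=
  Lo_eq (G := G) hx ▸ Ao_le_Loc hx hf

theorem inv_mem_Lo (hf : f ∈ G.Lo x) (h : ev (R.r f) x ≠ 0) : f⁻¹ ∈ G.Lo x := inv_mem_Loc hf h

theorem div_mem_Lo (hf : f ∈ G.Lo x) (hg : g ∈ G.Lo x) (h : ev (R.r g) x ≠ 0) :
    f / g ∈ G.Lo x := by
  rw [div_eq_mul_inv]
  exact mul_mem hf (inv_mem_Lo hg h)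

theorem smul_mem_Lo {c : ℂ} (hc : c ∈ R.o) (hf : f ∈ G.Lo x) : c • f ∈ G.Lo x := by
  rw [Algebra.smul_def]
  exact mul_mem (Ao_le_Loc _ (Red.cst_mem_Ao _ _ hc)) hf

variable (G) in
theorem exists_lift_Lo {a : F} (ha : a ∈ (lp x).O) : ∃ f ∈ G.Lo x, R.r f = a := by
  obtain ⟨i, hi⟩ := exists_pat x
  obtain ⟨b, hb, c, hc, h0, h1⟩ := (mem_lp_iff hi).1 ha
  obtain ⟨b, hb', rfl⟩ := G.exists_lift hb
  obtain ⟨c, hc', rfl⟩ := G.exists_lift hc
  have h2 : R.r c ≠ 0 := LP.ne_zero_of_ne h0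
  exact ⟨b / c, div_mem_Lo (Ao_le_Lo hi hb') (Ao_le_Lo hi hc') h0, by
    rw [Red.r_div (Ao_spec hb').1 (Ao_spec hc').1 h2, ← h1, mul_div_cancel_right₀ _ h2]⟩



theorem Lo_le_Lk (hf : f ∈ G.Lo x) : f ∈ G.Lk x := ⟨1, one_ne_zero, by rwa [one_smul]⟩

/-- saturation -/
theorem mem_Lo_of_Lk (hf : f ∈ G.Lk x) (h : f ∈ R.O) : f ∈ G.Lo x := by
  obtain ⟨i, hi⟩ := exists_pat x
  obtain ⟨c, hc, h1⟩ := hf
  obtain ⟨a, ha, d, hd, h0, h2⟩ := (mem_Lo_iff hi).1 h1
  refine (mem_Lo_iff hi).2 ⟨f * d, G.sat i _ ?_ (mul_mem h (Ao_spec hd).1), d, hd, h0, rfl⟩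
  have h3 : f * d = c⁻¹ • a := by rw [← h2, smul_mul_assoc, smul_smul, inv_mul_cancel₀ hc, one_smul]
  rw [h3]
  exact Subalgebra.smul_mem _ (Ao_le_chart ha) _

variable (G) in
/-- the local ring with the constants inverted, as a subalgebra -/
def LK (x : Pts P) : Subalgebra ℂ E where
  carrier := G.Lk x
  mul_mem' := by
    rintro f g ⟨c, hc, h⟩ ⟨c', hc', h'⟩
    exact ⟨c * c', mul_ne_zero hc hc', by rw [← smul_mul_smul_comm]; exact mul_mem h h'⟩
  add_mem' := by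
    rintro f g ⟨c, hc, h⟩ ⟨c', hc', h'⟩
    rcases R.val (c / c') with h1 | h1
    · refine ⟨c, hc, ?_⟩
      have h2 := smul_mem_Lo h1 h'
      rw [smul_smul, div_mul_cancel₀ _ hc'] at h2
      rw [smul_add]
      exact add_mem h h2
    · refine ⟨c', hc', ?_⟩
      have h2 := smul_mem_Lo h1 h
      rw [smul_smul, inv_div, div_mul_cancel₀ _ hc] at h2
      rw [smul_add]
      exact add_mem h2 h'
  algebraMap_mem' c := by
    by_cases hc : c = 0
    · exact Lo_le_Lk (by rw [hc, map_zero]; exact zero_mem _)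
    · refine ⟨c⁻¹, inv_ne_zero hc, ?_⟩
      rw [Algebra.smul_def, ← map_mul, inv_mul_cancel₀ hc, map_one]
      exact one_mem _




/-- elements of `Lk x` are fractions -/
theorem exists_frac (hx : x ∈ pat P i) (hf : f ∈ G.Lk x) :
    ∃ d ∈ R.Ao G.y i, ev (R.r d) x ≠ 0 ∧ f * d ∈ chart ℂ G.y i := by
  obtain ⟨c, hc, h1⟩ := hf
  obtain ⟨a, ha, d, hd, h0, h2⟩ := (mem_Lo_iff hx).1 h1
  refine ⟨d, hd, h0, ?_⟩
  have h3 : f * d = c⁻¹ • a := by rw [← h2, smul_mul_assoc, smul_smul, inv_mul_cancel₀ hc, one_smul]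
  rw [h3]
  exact Subalgebra.smul_mem _ (Ao_le_chart ha) _

end Pre

end Crest.Agent.X262.Alg44
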