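import Crest.Agent.X262.Mv99.Defs
import Crest.Agent.X262.Rig38.Defs
import Crest.Agent.X262.Surf.Defs

/-!
# Row 262, G4 / ALG (helper44), part 1: reductions, families, statements

* `Red F E`  : a place `E → F` which is not trivial on the constants and has no defect;
* `Pre R P`  : homogeneous coordinates `y` on `E` which reduce to the coordinates of `P`;
  `Ao i`, `Lo x`, `Lk x` : charts and local rings of the total space, `G.P` : the generic fibre;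
* `GR R P`   : the same with factorial local rings (`pic`) and a very general direction (`rig`);
* `Fam P`, `FS`, `Rigid`, `LFam` : formal families;
* `GenSecStmt` (76), `UfdStmt`, `GenStmt` (44), `K3Stmt` (78), `LevStmt`, `RigidStmt` (99).
-/

set_option autoImplicit false

open PowerSeries
open scoped KaehlerDifferential

noncomputable section

namespace Crest.Agent.X262.Alg44

open Crest.Agent.X277 Crest.Agent.X277.Lef Crest.Agent.X277.AN.G1 Crest.Agent.X277.BD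
open Crest.Agent.X277.BD.Br (On oP kP At)
open Crest.Agent.X262.Top (Hyp K3 Lines Reg1 SmCub)
open Crest.Agent.X262.Mv99 (Mv serR oR Dfm Lifts Qt U)
open Crest.Agent.X262.Surf (B2 Chi RRStmt SerStmt)
open Crest.Agent.R274.Prod1_134 (IsPF)

/-- a reduction map -/
structure Red (F E : Type) [Field F] [Algebra ℂ F] [Field E] [Algebra ℂ E] where
  /-- the valuation ring -/
  O : Subring E
  /-- the reduction -/
  r : E → F
  r_add : ∀ {f g : E}, f ∈ O → g ∈ O → r (f + g) = r f + r g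
  r_mul : ∀ {f g : E}, f ∈ O → g ∈ O → r (f * g) = r f * r g
  r_one : r 1 = 1
  inv_mem : ∀ {f : E}, f ∈ O → r f ≠ 0 → f⁻¹ ∈ O
  val : ∀ c : ℂ, algebraMap ℂ E c ∈ O ∨ algebraMap ℂ E c⁻¹ ∈ O
  /-- the reduction of the constants -/
  z : ℂ → ℂ
  r_cst : ∀ {c : ℂ}, algebraMap ℂ E c ∈ O → r (algebraMap ℂ E c) = algebraMap ℂ F (z c)
  z_sur : ∀ c₀ : ℂ, ∃ c : ℂ, algebraMap ℂ E c ∈ O ∧ z c = c₀
  ge : ∀ V : Submodule ℂ E, Module.Finite ℂ V → ∃ (n : ℕ) (b : Fin n → E), (∀ i, b i ∈ O) ∧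
    Submodule.span ℂ (Set.range b) = V ∧ LinearIndependent ℂ fun i => r (b i)

variable {F E : Type} [Field F] [Algebra ℂ F] [Field E] [Algebra ℂ E]

namespace Red

variable (R : Red F E)

/-- the integral constants -/
def o : Subring ℂ := R.O.comap (algebraMap ℂ E)

theorem mem_o {c : ℂ} : c ∈ R.o ↔ algebraMap ℂ E c ∈ R.O := Iff.rfl

/-- the reduction as a ring homomorphism -/
def ρ : R.O →+* F where
  toFun f := R.r f
  map_one' := R.r_one
  map_mul' f g := R.r_mul f.2 g.2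
  map_zero' := by
    have h := R.r_add R.O.zero_mem R.O.zero_mem
    rw [add_zero] at h
    exact left_eq_add.1 h
  map_add' f g := R.r_add f.2 g.2

theorem ρ_apply (f : R.O) : R.ρ f = R.r f := rfl

theorem r_zero : R.r 0 = 0 := R.ρ.map_zero

variable {R}

theorem div_mem {f g : E} (hf : f ∈ R.O) (hg : g ∈ R.O) (h : R.r g ≠ 0) : f / g ∈ R.O := by
  rw [div_eq_mul_inv]
  exact mul_mem hf (R.inv_mem hg h)

theorem ne_zero {g : E} (h : R.r g ≠ 0) : g ≠ 0 := fun h0 => h (h0 ▸ R.r_zero)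

theorem r_div {f g : E} (hf : f ∈ R.O) (hg : g ∈ R.O) (h : R.r g ≠ 0) :
    R.r (f / g) = R.r f / R.r g := by
  rw [eq_div_iff h, ← R.r_mul (div_mem hf hg h) hg, div_mul_cancel₀ _ (ne_zero h)]

variable (R)

/-- the integral chart ring of a family -/
def Ao {ι : Type} (y : ι → E) (i : ι) : Subring E :=
  Subring.closure (algebraMap ℂ E '' R.o ∪ Set.range fun j => y j / y i)

end Red

/-- coordinates which reduce to the coordinates of `P` -/
structure Pre (R : Red F E) (P : PModel ℂ F) where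
  /-- the coordinates -/
  y : Fin (P.N + 1) → E
  y_mem : ∀ i, y i ∈ R.O
  y_r : ∀ i, R.r (y i) = P.y i
  frac : ∀ f : E, ∃ a ∈ chart ℂ y 0, ∃ c ∈ chart ℂ y 0, c ≠ 0 ∧ f = a / c
  sat : ∀ i, ∀ f ∈ chart ℂ y i, f ∈ R.O → f ∈ R.Ao y i

namespace Pre

variable {R : Red F E} {P : PModel ℂ F} (G : Pre R P)

theorem y_ne (i : Fin (P.N + 1)) : G.y i ≠ 0 := Red.ne_zero (R := R) (G.y_r i ▸ P.y_ne i)

theorem div_mem (i j : Fin (P.N + 1)) : G.y j / G.y i ∈ R.O :=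
  Red.div_mem (G.y_mem j) (G.y_mem i) (G.y_r i ▸ P.y_ne i)

theorem r_div (i j : Fin (P.N + 1)) : R.r (G.y j / G.y i) = P.y j / P.y i := by
  rw [Red.r_div (G.y_mem j) (G.y_mem i) (G.y_r i ▸ P.y_ne i), G.y_r, G.y_r]

variable {G} in
theorem Ao_spec {i : Fin (P.N + 1)} {f : E} (hf : f ∈ R.Ao G.y i) : f ∈ R.O ∧ R.r f ∈ P.A i := by
  induction hf using Subring.closure_induction with
  | mem f hf =>
    rcases hf with ⟨c, hc, rfl⟩ | ⟨j, rfl⟩
    · exact ⟨hc, R.r_cst hc ▸ algebraMap_mem _ _⟩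
    · exact ⟨G.div_mem i j, G.r_div i j ▸ div_mem_chart P.y i j⟩
  | zero => exact ⟨zero_mem _, R.r_zero ▸ zero_mem _⟩
  | one => exact ⟨one_mem _, R.r_one ▸ one_mem _⟩
  | add f g _ _ hf hg => exact ⟨add_mem hf.1 hg.1, R.r_add hf.1 hg.1 ▸ add_mem hf.2 hg.2⟩
  | neg f _ hf =>
    refine ⟨neg_mem hf.1, ?_⟩
    have h : R.r (-f) = -R.r f := R.ρ.map_neg ⟨f, hf.1⟩
    exact h ▸ neg_mem hf.2
  | mul f g _ _ hf hg => exact ⟨mul_mem hf.1 hg.1, R.r_mul hf.1 hg.1 ▸ mul_mem hf.2 hg.2⟩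

/-- the localisation of the chart `i` at the point `x` of the special fibre -/
def Loc (i : Fin (P.N + 1)) (x : Pts P) (hx : x ∈ pat P i) : Subring E where
  carrier := {f | ∃ a ∈ R.Ao G.y i, ∃ c ∈ R.Ao G.y i, ev (R.r c) x ≠ 0 ∧ f * c = a}
  zero_mem' := ⟨0, zero_mem _, 1, one_mem _, by rw [R.r_one]; simp [ev, LP.v_one], zero_mul _⟩
  one_mem' := ⟨1, one_mem _, 1, one_mem _, by rw [R.r_one]; simp [ev, LP.v_one], one_mul _⟩
  add_mem' := by
    rintro f g ⟨a, ha, c, hc, h0, h1⟩ ⟨a', ha', c', hc', h0', h1'⟩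
    refine ⟨a * c' + a' * c, add_mem (mul_mem ha hc') (mul_mem ha' hc), c * c', mul_mem hc hc',
      ?_, by rw [← h1, ← h1']; ring⟩
    rw [R.r_mul (Ao_spec hc).1 (Ao_spec hc').1, ev,
      (lp x).v_mul (A_le hx (Ao_spec hc).2) (A_le hx (Ao_spec hc').2)]
    exact mul_ne_zero h0 h0'
  mul_mem' := by
    rintro f g ⟨a, ha, c, hc, h0, h1⟩ ⟨a', ha', c', hc', h0', h1'⟩
    refine ⟨a * a', mul_mem ha ha', c * c', mul_mem hc hc', ?_, by rw [← h1, ← h1']; ring⟩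
    rw [R.r_mul (Ao_spec hc).1 (Ao_spec hc').1, ev,
      (lp x).v_mul (A_le hx (Ao_spec hc).2) (A_le hx (Ao_spec hc').2)]
    exact mul_ne_zero h0 h0'
  neg_mem' := by
    rintro f ⟨a, ha, c, hc, h0, h1⟩
    exact ⟨-a, neg_mem ha, c, hc, h0, by rw [← h1]; ring⟩

/-- the local ring of the total space (`mem_Lo_iff` in `Alg44.Basic`: any chart) -/
def Lo (x : Pts P) : Subring E := G.Loc _ x (exists_pat x).choose_spec

/-- the local ring with the constants inverted -/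
def Lk (x : Pts P) : Set E := {f | ∃ c : ℂ, c ≠ 0 ∧ c • f ∈ G.Lo x}

/-- the charts of the generic fibre are smooth -/
def Sm : Prop := ∀ i, Algebra.Smooth ℂ (chart ℂ G.y i)

/-- the generic fibre -/
abbrev gen (h : G.Sm) : PModel ℂ E := ⟨P.N, G.y, G.y_ne, G.frac, h⟩

/-- invertible fractional ideals of `Lk x` are principal -/
def Pic : Prop := ∀ (x : Pts P) (n m : ℕ) (f : Fin n → E) (g : Fin m → E) (h : Fin n → Fin m → E),
  (∀ j l, f j * g l ∈ G.Lk x) → (∀ j l, h j l ∈ G.Lk x) → ∑ j, ∑ l, h j l * (f j * g l) = 1 →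
    ∃ φ : E, φ ≠ 0 ∧ (∀ j, f j / φ ∈ G.Lk x) ∧ ∀ l, φ * g l ∈ G.Lk x

/-- line bundles on the total space restrict to multiples of the hyperplane class -/
def Rig [Algebra.EssFiniteType ℂ F] : Prop := ∀ (n : ℕ) (σ : Fin (n + 1) → E),
  (∀ j, σ j ∈ R.O) → (∀ j, R.r (σ j) ≠ 0) → (∀ x : Pts P, ∃ j, ∀ l, σ l / σ j ∈ G.Lo x) →
    bnum [mxf ℂ fun j => R.r (σ j), mxf ℂ fun j => R.r (σ j)] * bnum [oP P, oP P] =
      bnum [mxf ℂ fun j => R.r (σ j), oP P] ^ 2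

end Pre

/-! ### formal families -/

/-- a formal family of polarised varieties: at `x` the local ring is `(m x).ψ (O_x⟦X⟧)` -/
structure Fam (P : PModel ℂ F) where
  /-- the coordinates -/
  yt : Fin (P.N + 1) → F⟦X⟧
  yt0 : ∀ i, constantCoeff (yt i) = P.y i
  one : yt 0 = 1
  /-- the moves -/
  m : Pts P → Mv ℂ F
  mem : ∀ (x : Pts P) (i : Fin (P.N + 1)), x ∈ pat P i → ∀ j,
    ∃ g ∈ serR (oR x), yt j = yt i * (m x).ψ g

/-- `m'` is the base change of `m` by `X ↦ X ^ e` -/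
def IsLev {k L : Type} [CommRing k] [CommRing L] [Algebra k L] (e : ℕ) (he : e ≠ 0)
    (m m' : Mv k L) : Prop := ∀ f, m'.ψ (expand e he f) = expand e he (m.ψ f)

namespace Fam

variable {P : PModel ℂ F} (T : Fam P)

/-- formal sections of `O(M)` -/
def FS (M : ℕ) : Set F⟦X⟧ := {f | ∀ (x : Pts P) (i : Fin (P.N + 1)), x ∈ pat P i →
  ∃ g ∈ serR (oR x), f = T.yt i ^ M * (T.m x).ψ g}

/-- after any base change, line bundles restrict to multiples of the hyperplane class -/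
def Rigid [Algebra.EssFiniteType ℂ F] : Prop := ∀ (e : ℕ) (he : e ≠ 0) (m' : Pts P → Mv ℂ F),
  (∀ x, IsLev e he (T.m x) (m' x)) → ∀ (n : ℕ) (σ : Fin (n + 1) → F⟦X⟧),
  (∀ j, constantCoeff (σ j) ≠ 0) →
  (∀ x : Pts P, ∃ j, ∀ l, ∃ w ∈ serR (oR x), σ l = σ j * (m' x).ψ w) →
    bnum [mxf ℂ fun j => constantCoeff (σ j), mxf ℂ fun j => constantCoeff (σ j)] *
      bnum [oP P, oP P] = bnum [mxf ℂ fun j => constantCoeff (σ j), oP P] ^ 2

end Fam

/-- the formal family of lines -/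
structure LFam {P : PModel ℂ F} (T : Fam P) {G : MvPolynomial (Fin 6) ℂ} {L : Type} [Field L]
    [Algebra ℂ L] (Λ : Lines G F L) where
  pf : IsPF Λ.ι (Λ.τ.comp Λ.ι)
  /-- `O(1)` is the `r`-th power of the bundle with the sections `ρ k` -/
  r : ℕ
  r_pos : 0 < r
  /-- the number of sections -/
  n : ℕ
  /-- sections, divided by a fixed section `ρ₀` -/
  ρ : Fin n → F⟦X⟧
  /-- `ρ₀ ^ r` as a section of `O(1)` -/
  β : F⟦X⟧
  β0 : constantCoeff β ≠ 0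
  fs : ∀ k, ∀ j ≤ r, ρ k ^ j * β ∈ T.FS 1
  fsβ : β ∈ T.FS 1
  /-- the chart coordinates of the line -/
  a : Fin 8 → L⟦X⟧
  a0 : ∀ i, constantCoeff (a i) = Λ.a i
  aτ : ∀ i, map (Λ.τ : L →+* L) (a i) = a i
  /-- the cubic -/
  c : Rig38.T3 ℂ⟦X⟧
  sy : Rig38.Sy c
  c0 : ∀ i j k, constantCoeff (c i j k) = Rig38.ten G i j k
  on : Rig38.OnL c (Rig38.pv a) (Rig38.qv a)
  /-- the multiplier of the Pluecker coordinates -/
  w : L⟦X⟧
  w0 : constantCoeff w ≠ 0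
  wτ : map (Λ.τ : L →+* L) (w ^ 2) = w ^ 2
  /-- the coefficients -/
  e : Fin 6 → Fin 6 → Fin n → Fin n → ℂ⟦X⟧
  pl : ∀ i j, w * Rig38.plk (Rig38.pv a) (Rig38.qv a) i j = ∑ k, ∑ l,
    e i j k l • (map (Λ.ι : F →+* L) (ρ k) * map (Λ.τ.comp Λ.ι : F →+* L) (ρ l))
  /-- the order along the diagonal -/
  ν : Valuation L (WithZero (Multiplicative ℤ))
  ν1 : ∀ f, f ≠ 0 → ν (Λ.ι f) = 1
  ν2 : ∀ f, f ≠ 0 → ν (Λ.τ (Λ.ι f)) = 1
  /-- the multiplicity -/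
  m : ℕ
  ord : ∀ i j d, ν (coeff d (w * Rig38.plk (Rig38.pv a) (Rig38.qv a) i j)) ≤
    WithZero.exp (-(m : ℤ))
  /-- the twist -/
  lam : L
  lam0 : lam ≠ 0
  sec : ∀ k : ℕ, ∀ σ ∈ (k • (pb Λ.ι (oP P) + pb (Λ.τ.comp Λ.ι) (oP P))).Sec,
    ν σ ≤ WithZero.exp (-((r * k * m : ℕ) : ℤ)) → lam ^ k * σ ∈ ((r * k) • mxf ℂ Λ.plk).Sec

/-! ### statements -/

/-- generation of the module of sections -/
def GenSecStmt : Prop := ∀ (F : Type) [Field F] [Algebra ℂ F] (P : PModel ℂ F) (ι : Type)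
  [Fintype ι] (s : ι → F), (∃ i, s i ≠ 0) → mxf ℂ s ∈ On P → ∃ M0 : ℕ, ∀ M, M0 ≤ M →
    ∀ f ∈ (mxf ℂ s + M • oP P).Sec, ∃ p : ι → MvPolynomial (Fin (P.N + 1)) ℂ,
      (∀ i, (p i).IsHomogeneous M) ∧ f = ∑ i, s i * MvPolynomial.aeval P.y (p i)

/-- local rings of the total space are factorial -/
def UfdStmt : Prop := ∀ (F : Type) [Field F] [Algebra ℂ F] (P : PModel ℂ F) (_ : B2 F) (x : Pts P)
  (A : Subring F⟦X⟧), A ≤ serR (oR x) → IsNoetherianRing A → X ∈ A →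
    (∀ c : ℂ, C (algebraMap ℂ F c) ∈ A) → (∀ f, X * f ∈ A → f ∈ A) →
    (∀ a ∈ oR x, ∃ f ∈ A, constantCoeff f = a) →
    (∀ f ∈ A, ev (constantCoeff f) x ≠ 0 → ∃ g ∈ A, f * g = 1) → UniqueFactorizationMonoid A


/-- the generic fibre is a K3 surface of Picard number one -/
def K3Stmt : Prop := ∀ (F E : Type) [Field F] [Algebra ℂ F] [Algebra.EssFiniteType ℂ F] [Field E]
  [Algebra ℂ E] [Algebra.EssFiniteType ℂ E] (R : Red F E) (P : PModel ℂ F) (G : Pre R P)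
  (b : B2 F) (h : G.Sm) (_ : B2 E) (D : ℕ), G.Pic → G.Rig → Chi P b 2 → Lin (kP P b) 0 →
    (∀ ω, Reg1 (G.gen h) ω → ω = 0) →
    (∀ M ∈ On P, ∀ k : ℤ, (∀ a ∈ On P, bnum [oP P - k • M, a] = 0) → D ≤ bnum [M, M]) →
      ∃ d : ℕ, D ≤ d ∧ Nonempty (K3 E d)

/-- base change of moves -/
def LevStmt : Prop := ∀ (k L : Type) [CommRing k] [CommRing L] [Algebra k L] (e : ℕ) (he : e ≠ 0)
  (m : Mv k L), ∃ m', IsLev e he m m'

/-- a line bundle on a ramified base change lifts to the first order -/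
def RigidStmt : Prop := ∀ (F : Type) [Field F] [Algebra ℂ F] (Γ : MvPolynomial (Fin 4) ℂ)
  (S : Hyp 3 Γ F), Qt Γ → ∀ (M : BD ℂ F) (D : Dfm S M) (e : ℕ) (he : e ≠ 0)
  (m' : Fin 3 → Mv ℂ F), (∀ a, IsLev e he (D.Φ a) (m' a)) → ∀ (n : ℕ) (σ : Fin (n + 1) → F⟦X⟧),
  (∀ j, constantCoeff (σ j) ≠ 0) →
  (∀ x : Pts S.P, ∃ a, x ∈ U S a ∧ ∃ j, ∀ l, ∃ w ∈ serR (oR x), σ l = σ j * (m' a).ψ w) →
    Lifts S D.η (mxf ℂ fun j => constantCoeff (σ j))

end Crest.Agent.X262.Alg44
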