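import Crest.Agent.X277.Cns.PBL
import Crest.Agent.X277.Cns.Jac
import Crest.Agent.X277.AN.G1AlgC
import Crest.Agent.X262.Alg44.Basic
import Crest.Agent.X277.AN.A2Pa
import Crest.Agent.X277.Res.FinCov
import Crest.Agent.X277.AN.G1Conn
import Crest.Agent.R276.IntC_448

-- ▼ part X277/Cns/PB
section

/-!
# Row 277, CONSTR (helper99), part 9: the projective model of `P(L₁ ⊕ L₂)`

`D : PBD P π t ι κ` : `E = π(F)(t)` and two generating families `s`, `s'` on `P`.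

* `D.mdl`         : the model with coordinates `π(y i s j) t`, `π(y i s' l)`; `D.eqv_mx`;
* `D.proj`        : the projection;
* `D.Ad x τ`      : `τ` is a fibre coordinate at `x`; `exists_pt`, `lp_eq`, `mem_or`, `crd`;
* `D.fr_xi_pos`, `D.fr_xi_neg` : local generators of the tautological frame;
* `D.sec0`, `D.secI`, `D.act` : the sections `t = 0`, `t = ∞` and the action of `ℂˣ`.
-/

set_option autoImplicit false
set_option linter.style.haveILetI false

noncomputable section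

namespace Crest.Agent.X277.Cns

open Crest.Agent.X277.Lef Crest.Agent.X277.AN.G1 Crest.Agent.R274.Prod1_134

variable {F E : Type} [Field F] [Algebra ℂ F] [Field E] [Algebra ℂ E] {P : PModel ℂ F}
  {π : F →ₐ[ℂ] E}

/-! ### families which consist of two parts -/

/-- the family `u` consists of the `π (s j) a` and the `π (s' l) b` -/
structure Two (P : PModel ℂ F) (π : F →ₐ[ℂ] E) {ι κ J : Type} (s : ι → F) (s' : κ → F) (a b : E)
    (u : J → E) : Prop where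
  gn : Gn P s
  gn' : Gn P s'
  ne : ∀ q, u q ≠ 0
  cov : ∀ q, (∃ j, u q = π (s j) * a) ∨ ∃ l, u q = π (s' l) * b
  l : ∀ j, ∃ q, u q = π (s j) * a
  r : ∀ l, ∃ q, u q = π (s' l) * b
  rf : IsRF π (a / b)

namespace Two

variable {ι κ J : Type} [Finite ι] [Nonempty ι] [Finite κ] [Nonempty κ] {s : ι → F} {s' : κ → F}
  {a b : E} {u : J → E} (T : Two P π s s' a b u) {x : Pts P} {M : LP E} {q : J} {l : κ} {f f' : F}

include T

omit [Finite ι] [Nonempty ι] [Finite κ] [Nonempty κ] in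
theorem symm : Two P π s' s b a u :=
  ⟨T.gn', T.gn, T.ne, fun q => (T.cov q).symm, T.r, T.l, by rw [← inv_div]; exact T.rf.inv⟩

omit [Finite ι] [Nonempty ι] [Finite κ] [Nonempty κ] in
theorem b_ne : b ≠ 0 := fun h0 => T.rf.t_ne (by rw [h0, div_zero])

omit [Finite ι] [Nonempty ι] in
theorem fr (hd : (lp x).Dom (M.comap (Plc.ofHom π))) (hq : u q = π (s' l) * b)
    (H : ∀ q', u q' / u q ∈ M.O) : Fr (mx s') x (s' l) := by
  have h0 : s' l ≠ 0 := fun h0 => T.ne q (by rw [hq, h0, map_zero, zero_mul])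
  refine fr_mx h0 (T.gn'.div_mem hd h0 fun l' => ⟨Algebra.mem_top, ?_⟩)
  obtain ⟨q', hq'⟩ := T.r l'
  have h1 := H q'
  rwa [hq, hq', mul_div_mul_right _ _ T.b_ne, ← map_div₀] at h1

theorem div_mem (hf : Fr (mx s) x f) (hf' : Fr (mx s') x f') (hq : u q = π (s' l) * b)
    (hl : Fr (mx s') x (s' l)) (q' : J) : u q' / u q ∈ ra π (lp x).O (π (f / f') * (a / b)) := by
  rcases T.cov q' with ⟨j, hj⟩ | ⟨j, hj⟩
  · have h1 : u q' / u q = π (s j / f * (f' / s' l)) * (π (f / f') * (a / b)) := by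
      have := hf.ne
      have := hf'.ne
      rw [hq, hj, ← mul_assoc, ← map_mul, ← div_mul_div_comm, ← map_div₀]
      congr 2
      field_simp
    rw [h1]
    exact mul_mem (π_mem_ra (mul_mem (hf.div_mem (mem_Sec_mx s j))
      (LP.mem_of_ne (hf'.ev_div_ne hl)))) τ_mem_ra
  · rw [hq, hj, mul_div_mul_right _ _ T.b_ne, ← map_div₀]
    exact π_mem_ra (hl.div_mem (mem_Sec_mx s' j))

theorem τ_mem (hd : (lp x).Dom (M.comap (Plc.ofHom π))) (hf : Fr (mx s) x f)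
    (hf' : Fr (mx s') x f') (hq : u q = π (s' l) * b) (H : ∀ q', u q' / u q ∈ M.O) :
    π (f / f') * (a / b) ∈ M.O := by
  have hl := T.fr hd hq H
  obtain ⟨j, hj, -⟩ := T.gn.exists_fr x
  obtain ⟨q', hq'⟩ := T.l j
  have h1 : π (f / f') * (a / b) = π (f / s j * (s' l / f')) * (u q' / u q) := by
    have := hj.ne
    have := hl.ne
    rw [hq, hq', ← div_mul_div_comm (π _) (π _), ← map_div₀, ← mul_assoc, ← map_mul]
    congr 2
    field_simp
  rw [h1]
  exact mul_mem (hd.le (mul_mem (LP.mem_of_ne (hf.ev_div_ne hj))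
    (LP.mem_of_ne (hl.ev_div_ne hf')))).2 (H q')

end Two

/-! ### the model -/

/-- the data of a `P¹`-bundle `P(L₁ ⊕ L₂)` -/
structure PBD (P : PModel ℂ F) (π : F →ₐ[ℂ] E) (t : E) (ι κ : Type) where
  rf : IsRF π t
  /-- generators of `L₁` -/
  s : ι → F
  /-- generators of `L₂` -/
  s' : κ → F
  ne : ∀ j, s j ≠ 0
  ne' : ∀ l, s' l ≠ 0
  gn : Gn P s
  gn' : Gn P s'

namespace PBD

variable {t : E} {ι κ : Type} (D : PBD P π t ι κ)

/-- generators of the tautological bundle -/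
def u : ι ⊕ κ → E := Sum.elim (fun j => π (D.s j) * t) fun l => π (D.s' l)

theorem two : Two P π D.s D.s' t 1 D.u where
  gn := D.gn
  gn' := D.gn'
  ne q := by
    rcases q with j | l
    exacts [mul_ne_zero ((map_ne_zero π).2 (D.ne j)) D.rf.t_ne, (map_ne_zero π).2 (D.ne' l)]
  cov q := by
    rcases q with j | l
    exacts [Or.inl ⟨j, rfl⟩, Or.inr ⟨l, (mul_one _).symm⟩]
  l j := ⟨Sum.inl j, rfl⟩
  r l := ⟨Sum.inr l, (mul_one _).symm⟩
  rf := by simpa using D.rf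

/-- the coordinates -/
def w (p : Fin (P.N + 1) × (ι ⊕ κ)) : E := π (P.y p.1) * D.u p.2

theorem w_ne (p : Fin (P.N + 1) × (ι ⊕ κ)) : D.w p ≠ 0 :=
  mul_ne_zero ((map_ne_zero π).2 (P.y_ne _)) (D.two.ne _)

theorem w_div (p p' : Fin (P.N + 1) × (ι ⊕ κ)) :
    D.w p' / D.w p = π (P.y p'.1 / P.y p.1) * (D.u p'.2 / D.u p.2) := by
  rw [w, w, map_div₀, div_mul_div_comm]

theorem y_mem_chI (p : Fin (P.N + 1) × (ι ⊕ κ)) (j : Fin (P.N + 1)) :
    π (P.y j / P.y p.1) ∈ chI ℂ D.w p := by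
  have h1 := div_mem_chI ℂ D.w p (j, p.2)
  rwa [w_div, div_self (D.two.ne _), mul_one] at h1

theorem u_mem_chI (p : Fin (P.N + 1) × (ι ⊕ κ)) (q : ι ⊕ κ) : D.u q / D.u p.2 ∈ chI ℂ D.w p := by
  have h1 := div_mem_chI ℂ D.w p (p.1, q)
  rwa [w_div, div_self (P.y_ne _), map_one, one_mul] at h1

theorem A_mem_chI (p : Fin (P.N + 1) × (ι ⊕ κ)) {a : F} (ha : a ∈ P.A p.1) : π a ∈ chI ℂ D.w p :=
  Algebra.adjoin_le (S := (chI ℂ D.w p).comap π) (Set.range_subset_iff.2 (D.y_mem_chI p)) ha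

variable [Finite ι] [Nonempty ι] [Finite κ] [Nonempty κ]

omit [Finite ι] [Finite κ] in
theorem frac (p : Fin (P.N + 1) × (ι ⊕ κ)) (g : E) :
    ∃ a ∈ chI ℂ D.w p, ∃ c ∈ chI ℂ D.w p, c ≠ 0 ∧ g = a / c := by
  let S := Subfield.closure (chI ℂ D.w p : Set E)
  have h1 : ∀ a, π a ∈ S := fun a => by
    obtain ⟨a, ha, c, hc, -, rfl⟩ := P.frac' p.1 a
    rw [map_div₀]
    exact div_mem (Subfield.subset_closure (D.A_mem_chI p ha))
      (Subfield.subset_closure (D.A_mem_chI p hc))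
  have h2 : t ∈ S := by
    obtain ⟨j⟩ := ‹Nonempty ι›
    obtain ⟨l⟩ := ‹Nonempty κ›
    have h3 : D.u (Sum.inl j) / D.u p.2 / (D.u (Sum.inr l) / D.u p.2) ∈ S :=
      div_mem (Subfield.subset_closure (D.u_mem_chI p _)) (Subfield.subset_closure (D.u_mem_chI p _))
    rw [div_div_div_cancel_right₀ (D.two.ne _)] at h3
    have h4 := mul_mem h3 (h1 (D.s' l / D.s j))
    have h5 := (map_ne_zero π).2 (D.ne j)
    have h6 := (map_ne_zero π).2 (D.ne' l)
    rwa [show D.u (Sum.inl j) / D.u (Sum.inr l) * π (D.s' l / D.s j) = t by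
      simp only [u, Sum.elim_inl, Sum.elim_inr, map_div₀]
      field_simp] at h4
  obtain ⟨a, ha, c, hc, rfl⟩ := Subfield.mem_closure_iff.1 (D.rf.mem_subfield S h1 h2 g)
  have h4 : Subring.closure (chI ℂ D.w p : Set E) = (chI ℂ D.w p).toSubring :=
    Subring.closure_eq (chI ℂ D.w p).toSubring
  rw [h4] at ha hc
  by_cases h0 : c = 0
  · exact ⟨0, zero_mem _, 1, one_mem _, one_ne_zero, by rw [h0, div_zero, zero_div]⟩
  · exact ⟨a, ha, c, hc, h0, rfl⟩

/-- `τ` is a fibre coordinate at `x` -/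
def Ad (x : Pts P) (τ : E) : Prop := ∃ f f', Fr (mx D.s) x f ∧ Fr (mx D.s') x f' ∧
  (τ = π (f / f') * t ∨ τ = (π (f / f') * t)⁻¹)

variable {D}

theorem Ad.rf {x : Pts P} {τ : E} (h : D.Ad x τ) : IsRF π τ := by
  obtain ⟨f, f', hf, hf', rfl | rfl⟩ := h
  exacts [D.rf.scale (div_ne_zero hf.ne hf'.ne), (D.rf.scale (div_ne_zero hf.ne hf'.ne)).inv]

theorem Ad.inv {x : Pts P} {τ : E} (h : D.Ad x τ) : D.Ad x τ⁻¹ := by
  obtain ⟨f, f', hf, hf', rfl | rfl⟩ := h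
  exacts [⟨f, f', hf, hf', Or.inr rfl⟩, ⟨f, f', hf, hf', Or.inl (inv_inv _)⟩]

theorem inv_eq (f f' : F) : (π (f / f') * t)⁻¹ = π (f' / f) * (1 / t) := by
  rw [mul_inv, ← map_inv₀, inv_div, one_div]

variable (D)

theorem exists_ad (x : Pts P) : ∃ τ, D.Ad x τ := by
  obtain ⟨j, hj, -⟩ := D.gn.exists_fr x
  obtain ⟨l, hl, -⟩ := D.gn'.exists_fr x
  exact ⟨_, _, _, hj, hl, Or.inl rfl⟩

/-- a local ring over a chart contains a fibre coordinate which generates the chart -/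
theorem exists_ad_of {x : Pts P} {M : LP E} (hd : (lp x).Dom (M.comap (Plc.ofHom π))) {q : ι ⊕ κ}
    (H : ∀ q', D.u q' / D.u q ∈ M.O) {τ : E} (hτ : D.Ad x τ) : ∃ σ, (σ = τ ∨ σ = τ⁻¹) ∧ σ ∈ M.O ∧
      ∀ q', D.u q' / D.u q ∈ ra π (lp x).O σ := by
  obtain ⟨f, f', hf, hf', h⟩ := hτ
  rcases D.two.cov q with ⟨j, hj⟩ | ⟨l, hl⟩
  · refine ⟨π (f' / f) * (1 / t), ?_, D.two.symm.τ_mem hd hf' hf hj H,
      D.two.symm.div_mem hf' hf hj (D.two.symm.fr hd hj H)⟩
    rw [← inv_eq]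
    rcases h with rfl | rfl
    exacts [Or.inr rfl, Or.inl rfl]
  · refine ⟨π (f / f') * (t / 1), ?_, D.two.τ_mem hd hf hf' hl H,
      D.two.div_mem hf hf' hl (D.two.fr hd hl H)⟩
    rw [div_one]
    rcases h with rfl | rfl
    exacts [Or.inl rfl, Or.inr (inv_inv _).symm]

theorem smooth (p : Fin (P.N + 1) × (ι ⊕ κ)) : Algebra.Smooth ℂ (chI ℂ D.w p) := by
  refine smooth_of_lp _ fun M hM => ?_
  obtain ⟨x, hx, hd⟩ := exists_dom (P := P) (i := p.1) (M.comap (Plc.ofHom π))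
    fun j => ⟨Algebra.mem_top, hM.le (D.y_mem_chI p j)⟩
  obtain ⟨τ, hτ⟩ := D.exists_ad x
  obtain ⟨σ, h1, h2, h3⟩ := D.exists_ad_of hd (fun q => hM.le (D.u_mem_chI p q)) hτ
  have h4 : IsRF π σ := by
    rcases h1 with rfl | rfl
    exacts [hτ.rf, hτ.rf.inv]
  haveI := lp_fs x
  haveI := fs_ra h4 (A := (lp x).O)
  refine fs_of (of_mono hM (chI_le fun p' => ?_) (ra_le (fun a ha => (hd.le ha).2) h2))
  rw [w_div]
  exact mul_mem (π_mem_ra (y_mem hx _)) (h3 _)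

/-- the projective model of `P(L₁ ⊕ L₂)` -/
def mdl : PModel ℂ E := ofFam D.w D.w_ne D.frac D.smooth

/-- the numbering of the coordinates -/
def e : Fin (D.mdl.N + 1) ≃ Fin (P.N + 1) × (ι ⊕ κ) := eI _

theorem mdl_y (i : Fin (D.mdl.N + 1)) : D.mdl.y i = D.w (D.e i) := rfl

theorem mdl_A (i : Fin (D.mdl.N + 1)) : D.mdl.A i = chI ℂ D.w (D.e i) := ofFam_A _ _ _ _ i




/-- the projection -/
def proj : Mor D.mdl P := morHom π fun x => by
  obtain ⟨i, hi⟩ := exists_pat x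
  refine ⟨(D.e i).1, fun j => A_le hi ?_⟩
  rw [mdl_A, ← map_div₀]
  exact D.y_mem_chI _ j



variable {D}


theorem Ad.exists_u {x : Pts P} {τ : E} (hτ : D.Ad x τ) : ∃ q, (∀ q', D.u q' / D.u q ∈
    ra π (lp x).O τ) ∧ ∀ M : LP E, (lp x).Dom (M.comap (Plc.ofHom π)) →
      (∀ q', D.u q' / D.u q ∈ M.O) → τ ∈ M.O := by
  obtain ⟨f, f', hf, hf', rfl | rfl⟩ := hτ
  · obtain ⟨l, hl, -⟩ := D.gn'.exists_fr x
    obtain ⟨q, hq⟩ := D.two.r l
    refine ⟨q, ?_, fun M hd H => ?_⟩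
    · simpa only [div_one] using D.two.div_mem hf hf' hq hl
    · simpa only [div_one] using D.two.τ_mem hd hf hf' hq H
  · obtain ⟨l, hl, -⟩ := D.gn.exists_fr x
    obtain ⟨q, hq⟩ := D.two.l l
    rw [inv_eq]
    exact ⟨q, D.two.symm.div_mem hf' hf hq hl, fun M hd H => D.two.symm.τ_mem hd hf' hf hq H⟩

/-- the point over `x` with `τ = c` -/
theorem exists_pt {x : Pts P} {τ : E} (hτ : D.Ad x τ) (c : ℂ) :
    ∃ w : Pts D.mdl, lp w = lpR hτ.rf (lp x) c := by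
  obtain ⟨q, h1, h2⟩ := hτ.exists_u
  obtain ⟨i, hi⟩ := exists_pat x
  have h3 := lpR_of hτ.rf (L := lp x) (c := c)
  obtain ⟨w, hw, hd⟩ := exists_dom (P := D.mdl) (i := D.e.symm (i, q)) (lpR hτ.rf (lp x) c)
    fun j => by
      rw [mdl_y, mdl_y, w_div, Equiv.apply_symm_apply]
      exact h3.le (mul_mem (π_mem_ra (y_mem hi _)) (h1 _))
  have h4 : D.proj.map w = x := eq_of_dom (L := (lpR hτ.rf (lp x) c).comap (Plc.ofHom π))
    ⟨fun a ha => ⟨Algebra.mem_top, hd.le (D.proj.π_mem ha)⟩,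
      fun a ha => (hd.eq _ (D.proj.π_mem ha)).trans (D.proj.ev_map ha).symm⟩ (dom_lpR _ _ _)
  have h5 : (lp x).Dom ((lp w).comap (Plc.ofHom π)) := h4 ▸ D.proj.dom w
  refine ⟨w, eq_of_dom_of hd h3 (ra_le (fun a ha => (h5.le ha).2) (h2 _ h5 fun q' => A_le hw ?_))⟩
  rw [mdl_A, Equiv.apply_symm_apply]
  exact D.u_mem_chI (i, q) q'







variable (D)

/-- the morphism to `P(L₁ ⊕ L₂)` over `μ` with `τ ↦ 0` -/
theorem reg_zero {K : Type} [Field K] [Algebra ℂ K] {R : PModel ℂ K} (μ : Mor R P) {a b : E}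
    {ι' κ' : Type} [Finite ι'] [Nonempty ι'] [Finite κ'] [Nonempty κ'] {s : ι' → F} {s' : κ' → F}
    (T : Two P π s s' a b D.u) {τ : E} (hτ : IsRF π τ) {c : F} (hc : a / b = π c * τ)
    (h1 : ∀ j l, s j / s' l * c ∈ μ.p.O) (x : Pts R) : ∃ i, ∀ j,
      D.mdl.y j / D.mdl.y i ∈ (plcR hτ μ.p 0).O ∧
        (plcR hτ μ.p 0).π (D.mdl.y j / D.mdl.y i) ∈ (lp x).O := by
  obtain ⟨i, hi⟩ := exists_pat (μ.map x)
  obtain ⟨l, hl, hl'⟩ := T.gn' (μ.map x)
  obtain ⟨q, hq⟩ := T.r l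
  refine ⟨D.e.symm (i, q), fun j => ?_⟩
  rw [mdl_y, mdl_y, w_div, Equiv.apply_symm_apply]
  have h2 := plcR_π hτ 0 (μ.mem_O (y_mem hi (D.e j).1))
  have h3 : D.u (D.e j).2 / D.u q ∈ (plcR hτ μ.p 0).O ∧
      (plcR hτ μ.p 0).π (D.u (D.e j).2 / D.u q) ∈ (lp x).O := by
    rcases T.cov (D.e j).2 with ⟨j', hj⟩ | ⟨j', hj⟩
    · have h4 := plcR_π hτ 0 (h1 j' l)
      have h5 := plcR_τ hτ μ.p 0
      rw [hq, hj, ← div_mul_div_comm, ← map_div₀, hc, ← mul_assoc, ← map_mul]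
      exact ⟨mul_mem h4.1 h5.1, by rw [Plc.π_mul _ h4.1 h5.1, h5.2, mul_zero]; exact zero_mem _⟩
    · have h4 := plcR_π hτ 0 (μ.mem_O (hl' j'))
      rw [hq, hj, mul_div_mul_right _ _ T.b_ne, ← map_div₀]
      exact ⟨h4.1, h4.2.symm ▸ μ.π_mem (hl' j')⟩
  exact ⟨mul_mem h2.1 h3.1, by
    rw [Plc.π_mul _ h2.1 h3.1, h2.2]
    exact mul_mem (μ.π_mem (y_mem hi _)) h3.2⟩

/-- the section `t = 0` -/
def sec0 : Mor P D.mdl where
  p := plcR D.rf (idM P).p 0
  reg := D.reg_zero (idM P) D.two D.rf (c := 1) (by simp) fun _ _ => Algebra.mem_top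

/-- the section `t = ∞` -/
def secI : Mor P D.mdl where
  p := plcR D.rf.inv (idM P).p 0
  reg := D.reg_zero (idM P) D.two.symm D.rf.inv (c := 1) (by simp) fun _ _ => Algebra.mem_top

theorem proj_map_of {K : Type} [Field K] [Algebra ℂ K] {R : PModel ℂ K} (μ : Mor R P)
    (ν : Mor R D.mdl) (h : ∀ a ∈ μ.p.O, π a ∈ ν.p.O ∧ ν.p.π (π a) = μ.p.π a) (x : Pts R) :
    D.proj.map (ν.map x) = μ.map x := by
  rw [← Mor.comp_map]
  refine Mor.map_eq _ ⟨fun a ha => ?_, fun a ha => ?_⟩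
  · have h1 := h a (μ.mem_O ha)
    exact ⟨⟨Algebra.mem_top, h1.1⟩, show ν.p.π (π a) ∈ _ from h1.2.symm ▸ μ.π_mem ha⟩
  · exact (congrArg (lp x).v (h a (μ.mem_O ha)).2).trans (μ.ev_map ha).symm

@[simp] theorem proj_sec0 (x : Pts P) : D.proj.map (D.sec0.map x) = x :=
  (D.proj_map_of (idM P) D.sec0 (fun _ ha => plcR_π D.rf 0 ha) x).trans (idM_map x)

@[simp] theorem proj_secI (x : Pts P) : D.proj.map (D.secI.map x) = x :=
  (D.proj_map_of (idM P) D.secI (fun _ ha => plcR_π D.rf.inv 0 ha) x).trans (idM_map x)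




omit [Finite ι] [Nonempty ι] [Finite κ] [Nonempty κ] in
theorem sc_u {c : ℂ} (hc : c ≠ 0) (q : ι ⊕ κ) : ∃ a : ℂ, a ≠ 0 ∧
    D.rf.sc (c := algebraMap ℂ F c) (by simpa using hc) (D.u q) = algebraMap ℂ E a * D.u q := by
  rcases q with j | l
  · exact ⟨c, hc, by simp [u, mul_left_comm]⟩
  · exact ⟨1, one_ne_zero, by simp [u]⟩

/-- the action of `c ∈ ℂˣ` -/
def act {c : ℂ} (hc : c ≠ 0) : Mor D.mdl D.mdl :=
  morHom (D.rf.sc (c := algebraMap ℂ F c) (by simpa using hc) : E →ₐ[ℂ] E) fun x => by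
    obtain ⟨i, hi⟩ := exists_pat x
    refine ⟨i, fun j => ?_⟩
    obtain ⟨a, -, ha⟩ := D.sc_u hc (D.e j).2
    obtain ⟨a', -, ha'⟩ := D.sc_u hc (D.e i).2
    have h1 := mul_mem (algebraMap_mem _ (a / a')) (y_mem hi j)
    simp only [mdl_y, w, map_mul, AlgEquiv.coe_toAlgHom, IsRF.sc_π, ha, ha', map_div₀] at h1 ⊢
    rwa [div_mul_div_comm, mul_left_comm, mul_left_comm (algebraMap ℂ E a')] at h1


@[simp] theorem proj_act {c : ℂ} (hc : c ≠ 0) (w : Pts D.mdl) :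
    D.proj.map ((D.act hc).map w) = D.proj.map w :=
  D.proj_map_of D.proj (D.act hc) (fun a _ => ⟨Algebra.mem_top, D.rf.sc_π _ a⟩) w

end PBD

end Crest.Agent.X277.Cns
end
end

-- ▼ part X277/Cns/Can
section

/-!
# Row 277, CONSTR (helper99), part 10: frames of the canonical bundle

* `IsK P b d` : the frame `d` is generated by the Jacobians of local coordinates;
* `kFam`, `kFr`, `isK_kFr` : `K + 2 n O(1)` is generated by an explicit family;
* `IsK.H_eq`  : `P.H b m j = Sec (d ^ m * mx y ^ j)`;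
* `isK_prod`, `PBD.isK` : the canonical frames of products and of `P(L₁ ⊕ L₂)`.
-/

set_option autoImplicit false
set_option linter.style.haveILetI false

open scoped KaehlerDifferential
open Module

noncomputable section

namespace Crest.Agent.X277.Cns

open Crest.Agent.X277.Lef Crest.Agent.X277.AN.G1 Crest.Agent.R274.Prod1_134

variable {F L E : Type} [Field F] [Algebra ℂ F] [Field L] [Algebra ℂ L] [Field E] [Algebra ℂ E]
  {P : PModel ℂ F} {n : ℕ} {b : Basis (Fin n) F Ω[F⁄ℂ]} {d d' : ValuationSubring F → F}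

variable (P b) in
/-- `d` is a frame of the canonical bundle -/
def IsK (d : ValuationSubring F → F) : Prop :=
  ∀ (x : Pts P) (z : Fin n → F), (lp x).Crd z → Fr d x (jac b z)


theorem IsK.exists_fr (h : IsK P b d) (x : Pts P) : ∃ z, (lp x).Crd z ∧ Fr d x (jac b z) := by
  obtain ⟨z, hz⟩ := exists_crd b x
  exact ⟨z, hz, h x z hz⟩




/-- Jacobians of regular functions are sections -/
theorem IsK.jac_div_mem (h : IsK P b d) {x : Pts P} {V : ValuationSubring F} (hV : Ov x V)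
    {a : Fin n → F} (ha : ∀ l, a l ∈ (lp x).O) : jac b a / d V ∈ V := by
  obtain ⟨z, hz, h1⟩ := h.exists_fr x
  exact h1.div_mem_iff.1 (hz.jac_div_mem (lp_fin x) b ha) V hV



/-- some of the chart functions are coordinates -/
theorem exists_crd_y (b : Basis (Fin n) F Ω[F⁄ℂ]) {i : Fin (P.N + 1)} {x : Pts P}
    (hx : x ∈ pat P i) : ∃ J : Fin n → Fin (P.N + 1), (lp x).Crd fun l => P.y (J l) / P.y i := by
  obtain ⟨z, hz⟩ := exists_crd b x
  have h0 := jac_ne b hz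
  have h1 : (lp x).Crd fun j => P.y j / P.y i :=
    crd_of_gen (y_mem hx) (lp_of hx) (Set.forall_mem_range.2 fun j =>
      Ex.self (z := fun j => P.y j / P.y i) j)
  choose c hc h2 using fun l => h1.exists_D (lp_fin x) (hz.mem l)
  have h3 : jac b z = ∑ J : Fin n → Fin (P.N + 1),
      (∏ l, c l (J l)) * jac b fun l => P.y (J l) / P.y i := by
    unfold jac
    simp only [h2]
    rw [← AlternatingMap.coe_multilinearMap, MultilinearMap.map_sum]
    exact Finset.sum_congr rfl fun J _ => MultilinearMap.map_smul_univ _ _ _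
  by_contra hcon
  have h4 : ∀ J : Fin n → Fin (P.N + 1),
      (lp x).v ((jac b fun l => P.y (J l) / P.y i) / jac b z) = 0 := fun J => by
    by_contra h5
    exact hcon ⟨J, (hz.crd_iff_jac (lp_fin x) b fun l => y_mem hx _).2 h5⟩
  have h5 : ∀ J : Fin n → Fin (P.N + 1), (jac b fun l => P.y (J l) / P.y i) / jac b z ∈ (lp x).O :=
    fun J => hz.jac_div_mem (lp_fin x) b fun l => y_mem hx _
  have h6 : (1 : F) = ∑ J : Fin n → Fin (P.N + 1),
      (∏ l, c l (J l)) * ((jac b fun l => P.y (J l) / P.y i) / jac b z) := by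
    simp only [← mul_div_assoc]
    rw [← Finset.sum_div, ← h3, div_self h0]
  have h7 := congrArg (lp x).v h6
  rw [LP.v_one, LP.v_sum _ fun J _ => mul_mem (prod_mem fun l _ => hc l _) (h5 J),
    Finset.sum_eq_zero fun J _ => by
      rw [(lp x).v_mul (prod_mem fun l _ => hc l _) (h5 J), h4, mul_zero]] at h7
  exact one_ne_zero h7







theorem Fr.neg {x : Pts P} {f : F} (h : Fr d x f) : Fr d x (-f) :=
  h.of_ev (by
    rw [div_neg, div_self h.ne]
    unfold ev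
    rw [LP.v_neg (one_mem _), LP.v_one]
    exact neg_ne_zero.2 one_ne_zero)


end Crest.Agent.X277.Cns
end
end

-- ▼ part X262/Alg44/Gen

/-!
# Row 262, G4 / ALG (helper44), part 3: the generic fibre is smooth

* `Pre.exists_sp`  : a point with integral coordinates specialises;
* `Pre.Lo_le`      : its local ring contains the local ring of the total space;
* `Pre.exists_crd` : coordinates lift;
* `Pre.sm`, `Pre.basis`, `Pre.essFT` : the generic fibre is smooth of the same dimension.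
-/

set_option autoImplicit false

open MvPolynomial
open scoped KaehlerDifferential

noncomputable section

namespace Crest.Agent.X262.Alg44

open Crest.Agent.X277 Crest.Agent.X277.Lef Crest.Agent.X277.AN.G1

variable {F E : Type} [Field F] [Algebra ℂ F] [Field E] [Algebra ℂ E]

/-- Taylor expansion of order one -/
theorem exists_taylor {σ A : Type*} [CommRing A] [Fintype σ] (β : σ → A) (q : MvPolynomial σ A) :
    ∃ h : σ → MvPolynomial σ A, q = C (eval β q) + ∑ k, h k * (X k - C (β k)) := by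
  classical
  induction q using MvPolynomial.induction_on with
  | C c => exact ⟨0, by simp⟩
  | add p q hp hq =>
    obtain ⟨h, h1⟩ := hp
    obtain ⟨h', h2⟩ := hq
    refine ⟨h + h', ?_⟩
    simp only [Pi.add_apply, add_mul, Finset.sum_add_distrib, map_add]
    linear_combination h1 + h2
  | mul_X p i hp =>
    obtain ⟨h, h1⟩ := hp
    refine ⟨fun k => h k * X i + if k = i then C (eval β p) else 0, ?_⟩
    simp only [add_mul, Finset.sum_add_distrib, ite_mul, zero_mul, Finset.sum_ite_eq',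
      Finset.mem_univ, if_true, map_mul, eval_X, mul_right_comm _ (X i : MvPolynomial σ A),
      ← Finset.sum_mul]
    linear_combination X i * h1

theorem algIndep_of_crd {n : ℕ} {P : PModel ℂ F} (b : Module.Basis (Fin n) F Ω[F⁄ℂ]) {x : Pts P}
    {z : Fin n → F} (hz : (lp x).Crd z) : AlgebraicIndependent ℂ z := by
  have hj := jac_ne b hz
  refine R276.IntC_448.algebraicIndependent_of_det (fun l => pdD hj l) z ?_
  have h : (Matrix.of fun i j => pdD hj j (z i)) = 1 := by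
    ext i j
    rw [Matrix.of_apply, pdD_apply, pd_self hj, Matrix.one_apply]
    simp only [eq_comm]
  rw [h, Matrix.det_one]
  exact one_ne_zero

namespace Pre

variable {R : Red F E} {P : PModel ℂ F} {G : Pre R P} {i : Fin (P.N + 1)} {L : LP E}

theorem v_Ao (h1 : ∀ j, G.y j / G.y i ∈ L.O) (q : MvPolynomial (Fin (P.N + 1)) R.o) :
    aeval (fun j => G.y j / G.y i) (R.up q) ∈ L.O ∧
      L.v (aeval (fun j => G.y j / G.y i) (R.up q)) =
        eval (fun j => L.v (G.y j / G.y i)) (R.up q) :=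
  ⟨LP.aeval_mem h1 _, LP.v_aeval h1 _⟩

/-- specialisation of a point with integral coordinates -/
theorem exists_sp (h1 : ∀ j, G.y j / G.y i ∈ L.O) (h2 : ∀ j, L.v (G.y j / G.y i) ∈ R.o) :
    ∃ x ∈ pat P i, ∀ f ∈ R.Ao G.y i, f ∈ L.O ∧ L.v f ∈ R.o ∧ R.z (L.v f) = ev (R.r f) x := by
  have h3 : ∀ q : MvPolynomial (Fin (P.N + 1)) R.o, aeval (fun j => P.y j / P.y i) (R.dn q) = 0 →
      eval (fun j => R.z (L.v (G.y j / G.y i))) (R.dn q) = 0 := by
    intro q hq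
    obtain ⟨c, hc, h4, g, hg, h5⟩ := exists_ker (G := G) (Red.mem_Ao_iff.2 ⟨q, rfl⟩)
      ((r_aeval i q).trans hq)
    obtain ⟨q', rfl⟩ := Red.mem_Ao_iff.1 hg
    rw [← (Red.z_eval h2 q).2, ← (v_Ao h1 q).2, h5, LP.v_smul _ (v_Ao h1 q').1, (v_Ao h1 q').2,
      Red.z_mul hc (Red.z_eval h2 q').1, h4, zero_mul]
  let φ : P.A i →ₐ[ℂ] ℂ := AlgHom.liftOfSurjective (aeval (AN.G1.gen P i)) (gen_surj i)
    (aeval fun j => R.z (L.v (G.y j / G.y i))) (by
      intro p hp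
      obtain ⟨q, rfl⟩ := R.dn_surj p
      have h4 := congrArg Subtype.val (RingHom.mem_ker.1 hp)
      exact RingHom.mem_ker.2 (h3 q ((aeval_gen i _).symm.trans h4)))
  obtain ⟨x, hx, h4⟩ := exists_pt i φ
  refine ⟨x, hx, fun f hf => ?_⟩
  obtain ⟨q, rfl⟩ := Red.mem_Ao_iff.1 hf
  refine ⟨(v_Ao h1 q).1, (v_Ao h1 q).2 ▸ (Red.z_eval h2 q).1, ?_⟩
  rw [(v_Ao h1 q).2, (Red.z_eval h2 q).2, r_aeval, ← aeval_gen, h4]
  symm
  exact AlgHom.liftOfSurjective_apply _ _ _ _ _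

variable {x : Pts P}

theorem Lo_le (hx : x ∈ pat P i)
    (h : ∀ f ∈ R.Ao G.y i, f ∈ L.O ∧ L.v f ∈ R.o ∧ R.z (L.v f) = ev (R.r f) x) {f : E}
    (hf : f ∈ G.Lo x) : f ∈ L.O := by
  obtain ⟨a, ha, c, hc, h0, h1⟩ := (mem_Lo_iff hx).1 hf
  have h2 : L.v c ≠ 0 := fun h3 => h0 (by rw [← (h c hc).2.2, h3, Red.z_zero])
  obtain rfl : f = a / c := by rw [← h1, mul_div_cancel_right₀ _ (LP.ne_zero_of_ne h2)]
  exact LP.div_mem (h a ha).1 h2

/-- coordinates lift -/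
theorem crd_of_sp (hL : L.Of (chart ℂ G.y i)) (hx : x ∈ pat P i)
    (h : ∀ f ∈ R.Ao G.y i, f ∈ L.O ∧ L.v f ∈ R.o ∧ R.z (L.v f) = ev (R.r f) x) {n : ℕ}
    {J : Fin n → Fin (P.N + 1)} (hJ : (lp x).Crd fun l => P.y (J l) / P.y i) :
    L.Crd fun l => G.y (J l) / G.y i := by
  classical
  have h1 : ∀ j, G.y j / G.y i ∈ L.O := fun j => (h _ (Red.div_mem_Ao _ _ _)).1
  have h2 : ∀ j, L.v (G.y j / G.y i) ∈ R.o := fun j => (h _ (Red.div_mem_Ao _ _ _)).2.1
  let t : Fin (P.N + 1) → E := fun j => G.y j / G.y i - algebraMap ℂ E (L.v (G.y j / G.y i))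
  have ht : ∀ j, t j ∈ G.Lo x := fun j =>
    Ao_le_Lo hx (sub_mem (Red.div_mem_Ao _ _ _) (Red.cst_mem_Ao _ _ (h2 j)))
  have htr : ∀ j, R.r (t j) = P.y j / P.y i - algebraMap ℂ F ((lp x).v (P.y j / P.y i)) := by
    intro j
    rw [Red.r_sub (G.div_mem i j) (h2 j), R.r_cst (h2 j), (h _ (Red.div_mem_Ao _ _ _)).2.2,
      G.r_div]
  have htv : ∀ j, L.v (t j) = 0 := fun j => LP.v_sub_v (h1 j)
  let I : Submodule (G.Lo x) E := Submodule.span _ (Set.range t)
  let N : Submodule (G.Lo x) E := Submodule.span _ (Set.range fun l => t (J l))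
  let m : Ideal (G.Lo x) := RingHom.ker (R.ρ.comp (Subring.inclusion fun f hf => (Lo_spec hf).1))
  have hm : ∀ f : G.Lo x, f ∈ m ↔ R.r f = 0 := fun f => Iff.rfl
  have hI : ∀ g ∈ G.Lo x, L.v g = 0 → g ∈ I := by
    intro g hg h0
    obtain ⟨a, ha, c, hc, h3, h4⟩ := (mem_Lo_iff hx).1 hg
    obtain ⟨q, rfl⟩ := Red.mem_Ao_iff.1 ha
    obtain ⟨k, hk⟩ := exists_taylor (fun j => (⟨_, h2 j⟩ : R.o)) q
    have h5 : (eval (fun j => (⟨_, h2 j⟩ : R.o)) q : ℂ) = 0 := by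
      have h6 := (v_Ao h1 q).2
      rw [← h4, L.v_mul (Lo_le hx h hg) (h c hc).1, h0, zero_mul] at h6
      rw [h6, Red.up, eval_map]
      exact eval₂_comp_left R.o.subtype (RingHom.id _) _ q
    have h6 : g = ∑ j, (aeval (fun j => G.y j / G.y i) (R.up (k j)) / c) * t j := by
      rw [← mul_left_inj' (Red.ne_zero (LP.ne_zero_of_ne h3)), h4, hk, Finset.sum_mul]
      simp only [map_add, map_sum, map_mul, map_sub, Red.up_C, Red.up_X, aeval_C, aeval_X, h5,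
        map_zero, zero_add]
      refine Finset.sum_congr rfl fun j _ => ?_
      rw [mul_right_comm, div_mul_cancel₀ _ (Red.ne_zero (LP.ne_zero_of_ne h3))]
    rw [h6]
    exact sum_mem fun j _ => I.smul_mem ⟨_, div_mem_Lo (Ao_le_Lo hx (Red.mem_Ao_iff.2 ⟨_, rfl⟩))
      (Ao_le_Lo hx hc) h3⟩ (Submodule.subset_span ⟨j, rfl⟩)
  have key : I ≤ N := by
    refine Submodule.le_of_le_smul_of_le_jacobson_bot (I := m)
      (Submodule.fg_span (Set.finite_range t)) (fun f hf => Ideal.mem_jacobson_bot.2 fun g => ?_)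
      (Submodule.span_le.2 ?_)
    · have h3 : R.r ((f * g + 1 : G.Lo x) : E) = 1 := by
        change R.r (f * g + 1) = 1
        rw [R.r_add (mul_mem (Lo_spec f.2).1 (Lo_spec g.2).1) (one_mem _),
          R.r_mul (Lo_spec f.2).1 (Lo_spec g.2).1, (hm f).1 hf, zero_mul, zero_add, R.r_one]
      have h4 := inv_mem_Lo (f * g + 1).2 (by rw [h3]; simp [ev])
      exact IsUnit.of_mul_eq_one ⟨_, h4⟩ (Subtype.ext (mul_inv_cancel₀
        (Red.ne_zero (R := R) (h3 ▸ one_ne_zero))))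
    · rintro _ ⟨j, rfl⟩
      obtain ⟨c, hc, h3⟩ := hJ.gen _ (AN.G1.y_mem hx j)
      choose d hd h4 using fun l => G.exists_lift_Lo (hc l)
      have h5 : ∀ l, d l * t (J l) ∈ G.Lo x := fun l => mul_mem (hd l) (ht _)
      have h6 : t j - ∑ l, d l * t (J l) ∈ G.Lo x := sub_mem (ht j) (sum_mem fun l _ => h5 l)
      have h7 : R.r (t j - ∑ l, d l * t (J l)) = 0 := by
        rw [Red.r_sub (Lo_spec (ht j)).1 (sum_mem fun l _ => (Lo_spec (h5 l)).1),
          Red.r_sum fun l _ => (Lo_spec (h5 l)).1,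
          Finset.sum_congr rfl fun l _ => R.r_mul (Lo_spec (hd l)).1 (Lo_spec (ht _)).1]
        simp only [htr, h4]
        linear_combination h3
      have h8 : L.v (t j - ∑ l, d l * t (J l)) = 0 := by
        rw [LP.v_sub (Lo_le hx h (ht j)) (sum_mem fun l _ => Lo_le hx h (h5 l)),
          LP.v_sum _ fun l _ => Lo_le hx h (h5 l),
          Finset.sum_congr rfl fun l _ => L.v_mul (Lo_le hx h (hd l)) (Lo_le hx h (ht _))]
        simp [htv]
      have h9 : t j - ∑ l, d l * t (J l) ∈ m • I := by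
        obtain ⟨e, he, h10, g, hg, h11, h12⟩ := Red.exists_of_r_zero (Lo_spec h6).1 h7
        obtain ⟨a, rfl⟩ := Submodule.mem_span_singleton.1 h12
        have h13 := mem_Lo_of_Lk ((G.LK x).smul_mem (Lo_le_Lk h6) a) hg
        have h14 : (⟨_, Ao_le_Lo hx (Red.cst_mem_Ao _ _ he)⟩ : G.Lo x) ∈ m :=
          (hm _).2 (by
            change R.r (algebraMap ℂ E e) = 0
            rw [R.r_cst he, h10, map_zero])
        have h15 := Submodule.smul_mem_smul h14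
          (hI _ h13 (by rw [LP.v_smul _ (Lo_le hx h h6), h8, mul_zero]))
        rw [h11, Algebra.smul_def e]
        exact h15
      have h10 : ∑ l, d l * t (J l) ∈ N := sum_mem fun l _ =>
        N.smul_mem ⟨_, hd l⟩ (Submodule.subset_span ⟨l, rfl⟩)
      have h11 := Submodule.add_mem_sup h10 h9
      rwa [add_sub_cancel] at h11
  refine Cns.crd_of_gen (fun l => h1 _) hL ?_
  rintro _ ⟨j, rfl⟩
  obtain ⟨c, hc⟩ := (Submodule.mem_span_range_iff_exists_fun _).1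
    (key (Submodule.subset_span ⟨j, rfl⟩))
  refine ⟨fun l => c l, fun l => Lo_le hx h (c l).2, ?_⟩
  rw [← sub_eq_iff_eq_add']
  exact hc.symm

variable (G)

theorem isFrac (i : Fin (P.N + 1)) : IsFractionRing (chart ℂ G.y i) E := by
  have h : Res.Out.IsFr (chart ℂ G.y i) := Res.Out.IsFr.chart G.y_ne G.frac i
  refine IsFractionRing.of_field _ _ fun f => ?_
  obtain ⟨a, ha, c, hc, -, h1⟩ := h f
  exact ⟨⟨a, ha⟩, ⟨c, hc⟩, h1⟩

/-- every point of the generic fibre has coordinates -/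
theorem exists_crd {n : ℕ} (b : Module.Basis (Fin n) F Ω[F⁄ℂ]) (i : Fin (P.N + 1))
    (φ : chart ℂ G.y i →ₐ[ℂ] ℂ) :
    (lpAt φ).Fin' ∧ ∃ T : Fin n → E, (lpAt φ).Crd T ∧ AlgebraicIndependent ℂ T := by
  have := Res.Out.finiteType_chart (k := ℂ) G.y i
  have := G.isFrac i
  refine ⟨(LP.of_lpAt φ).fin, ?_⟩
  have h0 : ∀ j, G.y j / G.y i ∈ (lpAt φ).O := fun j => le_lpAt φ (div_mem_chart G.y i j)
  obtain ⟨k, -, h1, h2⟩ := R.exists_min Finset.univ (a := fun j => (lpAt φ).v (G.y j / G.y i))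
    ⟨i, Finset.mem_univ i, by rw [div_self (G.y_ne i), LP.v_one]; exact one_ne_zero⟩
  obtain ⟨ψ, hψ⟩ := Res.Out.exists_change G.y_ne (i := k) φ (by
    rw [AN.A2P.lo_eq]
    exact AN.A2P.un_iff.2 h1)
  rw [AN.A2P.lo_eq, AN.A2P.lo_eq] at hψ
  have h3 : ∀ j, G.y j / G.y k = (G.y j / G.y i) / (G.y k / G.y i) := fun j => by
    have := G.y_ne i
    field_simp
  have h4 : (lpAt φ).Of (chart ℂ G.y k) := by
    refine ⟨hψ ▸ le_lpAt ψ, fun f hf => ?_⟩
    obtain ⟨a, ha, c, hc, h5, h6⟩ := (LP.of_lpAt ψ).loc f (hψ ▸ hf)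
    exact ⟨a, ha, c, hc, LP.ne_of_inv_mem (hψ ▸ LP.mem_of_ne h5) (LP.ne_zero_of_ne h5)
      (hψ ▸ (lpAt ψ).inv_mem h5), h6⟩
  obtain ⟨x, hx, h5⟩ := exists_sp (G := G) (L := lpAt φ) (i := k)
    (fun j => h4.le (div_mem_chart G.y k j)) fun j => by
      rw [h3, LP.v_div (h0 j) h1]
      exact h2 j (Finset.mem_univ j)
  obtain ⟨J, hJ⟩ := Cns.exists_crd_y b hx
  refine ⟨_, crd_of_sp h4 hx h5 hJ, Red.algIndep_of_r (R := R) (fun l => G.div_mem _ _) ?_⟩
  simp only [G.r_div]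
  exact algIndep_of_crd b hJ

/-- **the generic fibre is smooth** -/
theorem sm {n : ℕ} (b : Module.Basis (Fin n) F Ω[F⁄ℂ]) : G.Sm := fun i => by
  have := Res.Out.finiteType_chart (k := ℂ) G.y i
  refine Res.Out.smooth_of_coords fun φ => ?_
  obtain ⟨h1, T, h2, h3⟩ := G.exists_crd b i φ
  rw [AN.A2P.lo_eq]
  exact ⟨n, _, AN.A2P.coords_of_crd h1 h2 h3⟩

include G in
theorem basis {n : ℕ} (b : Module.Basis (Fin n) F Ω[F⁄ℂ]) :
    Nonempty (Module.Basis (Fin n) E Ω[E⁄ℂ]) := by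
  have := Res.Out.finiteType_chart (k := ℂ) G.y 0
  obtain ⟨φ, -⟩ := KT.exists_point_of_ne_top (𝕜 := ℂ) (⊥ : Ideal (chart ℂ G.y 0)) bot_ne_top
  obtain ⟨h1, T, h2, h3⟩ := G.exists_crd b 0 φ
  exact AN.A2P.exists_basis h1 h2 h3

theorem essFT (h : G.Sm) : Algebra.EssFiniteType ℂ E := essFiniteType (G.gen h)

end Pre

end Crest.Agent.X262.Alg44
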